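import Mathlib

namespace Vale.Agent.Helper23.P158

open scoped NNReal

/-- Nearest-neighbour adjacency on the square lattice. -/
def Adj (u v : ℤ × ℤ) : Prop := |u.1 - v.1| + |u.2 - v.2| = 1

/-- Sum of the weights of the edges traversed by a finite path, given as its list of
vertices. -/
def cost (t : Sym2 (ℤ × ℤ) → ℝ≥0) : List (ℤ × ℤ) → ℝ≥0
  | a :: b :: l => t s(a, b) + cost t (b :: l)
  | _ => 0

/-- Passage time: the infimum of the cost over all finite nearest-neighbour paths from `x`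
to `y`. -/
noncomputable def passage (t : Sym2 (ℤ × ℤ) → ℝ≥0) (x y : ℤ × ℤ) : ℝ≥0 :=
  ⨅ p : {l : List (ℤ × ℤ) // l.IsChain Adj ∧ l.head? = some x ∧ l.getLast? = some y},
    cost t p.1

/-- Geodesic ray: pairwise distinct vertices, consecutive ones adjacent, every finite
stretch realising the passage time between its endpoints. -/
def IsRay (t : Sym2 (ℤ × ℤ) → ℝ≥0) (v : ℕ → ℤ × ℤ) : Prop :=
  Function.Injective v ∧ (∀ i, Adj (v i) (v (i + 1))) ∧
    ∀ i j, i < j → ∑ k ∈ Finset.Ico i j, t s(v k, v (k + 1)) = passage t (v i) (v j)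

/-- Bigeodesic: the two-sided analogue. -/
def IsBigeodesic (t : Sym2 (ℤ × ℤ) → ℝ≥0) (v : ℤ → ℤ × ℤ) : Prop :=
  Function.Injective v ∧ (∀ i, Adj (v i) (v (i + 1))) ∧
    ∀ i j, i < j → ∑ k ∈ Finset.Ico i j, t s(v k, v (k + 1)) = passage t (v i) (v j)

end Vale.Agent.Helper23.P158
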