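import Mathlib
import Vale.Agent.Helper23.P158.Defs

namespace Vale.Agent.Helper23.P158

open scoped NNReal

/-- Frame: the point with first frame coordinate `x` and second `y`; `s` swaps the axes. -/
def mk (s : Bool) (x y : ℤ) : ℤ × ℤ := if s then (y, x) else (x, y)
/-- First frame coordinate. -/
def c1 (s : Bool) (u : ℤ × ℤ) : ℤ := if s then u.2 else u.1
/-- Second frame coordinate. -/
def c2 (s : Bool) (u : ℤ × ℤ) : ℤ := if s then u.1 else u.2

@[simp] lemma c1_mk (s : Bool) (x y : ℤ) : c1 s (mk s x y) = x := by cases s <;> rfl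
@[simp] lemma c2_mk (s : Bool) (x y : ℤ) : c2 s (mk s x y) = y := by cases s <;> rfl
lemma mk_c (s : Bool) (u : ℤ × ℤ) : mk s (c1 s u) (c2 s u) = u := by cases s <;> rfl

lemma ext_c (s : Bool) {u v : ℤ × ℤ} (h1 : c1 s u = c1 s v) (h2 : c2 s u = c2 s v) : u = v := by
  rw [← mk_c s u, ← mk_c s v, h1, h2]

lemma adj_iff (s : Bool) (u v : ℤ × ℤ) :
    Adj u v ↔ |c1 s u - c1 s v| + |c2 s u - c2 s v| = 1 := by
  cases s
  · simp [Adj, c1, c2]
  · simp [Adj, c1, c2, add_comm]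

lemma adj_symm {u v : ℤ × ℤ} (h : Adj u v) : Adj v u := by
  unfold Adj at h ⊢
  rw [abs_sub_comm v.1, abs_sub_comm v.2]; exact h

lemma abs_sum_one {a b : ℤ} (h : |a| + |b| = 1) :
    (a = 1 ∧ b = 0) ∨ (a = -1 ∧ b = 0) ∨ (a = 0 ∧ b = 1) ∨ (a = 0 ∧ b = -1) := by
  rcases abs_cases a with ⟨ha, ha'⟩ | ⟨ha, ha'⟩ <;>
    rcases abs_cases b with ⟨hb, hb'⟩ | ⟨hb, hb'⟩ <;> rw [ha, hb] at h <;> omega

lemma adj_h (s : Bool) (x y : ℤ) : Adj (mk s x y) (mk s (x + 1) y) := by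
  rw [adj_iff s]; simp

lemma adj_v (s : Bool) (x y : ℤ) : Adj (mk s x y) (mk s x (y + 1)) := by
  rw [adj_iff s]; simp

/-- The block event at position `m` (in intrinsic form): the horizontal edges of the strip
between columns `m` and `m + n` are expensive, the row just above the strip and the two
boundary columns are cheap. -/
def Good (s : Bool) (w n : ℕ) (a b : ℝ≥0) (t : Sym2 (ℤ × ℤ) → ℝ≥0) (m : ℤ) : Prop :=
  (∀ p q, c1 s q = c1 s p + 1 → c2 s q = c2 s p → m ≤ c1 s p → c1 s p < m + n →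
      |c2 s p| ≤ w → b ≤ t s(p, q)) ∧
  (∀ p q, c1 s q = c1 s p + 1 → c2 s q = c2 s p → m ≤ c1 s p → c1 s p < m + n →
      c2 s p = w + 1 → t s(p, q) ≤ a) ∧
  (∀ p q, c1 s q = c1 s p → c2 s q = c2 s p + 1 → (c1 s p = m ∨ c1 s p = m + n) →
      -(w : ℤ) ≤ c2 s p → c2 s p ≤ w → t s(p, q) ≤ a)

/-- Clamp to the interval from `m` to `m + n`. -/
def clampZ (m : ℤ) (n : ℕ) (z : ℤ) : ℤ := max m (min z (m + n))

lemma step_lb {s : Bool} {w n : ℕ} {a b : ℝ≥0} {t : Sym2 (ℤ × ℤ) → ℝ≥0} {m : ℤ}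
    (hg : Good s w n a b t m) {p q : ℤ × ℤ} (hadj : Adj p q) (hp : |c2 s p| ≤ w) :
    (b : ℝ) * (((clampZ m n (c1 s q) : ℤ) : ℝ) - ((clampZ m n (c1 s p) : ℤ) : ℝ))
      ≤ t s(p, q) := by
  rw [adj_iff s] at hadj
  have h2 : (0 : ℝ) ≤ t s(p, q) := NNReal.coe_nonneg _
  have h3 : (0 : ℝ) ≤ b := NNReal.coe_nonneg _
  by_cases hc : clampZ m n (c1 s q) ≤ clampZ m n (c1 s p)
  · have : ((clampZ m n (c1 s q) : ℤ) : ℝ) ≤ ((clampZ m n (c1 s p) : ℤ) : ℝ) := by
      exact_mod_cast hc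
    nlinarith
  · have hc' : clampZ m n (c1 s p) < clampZ m n (c1 s q) := lt_of_not_ge hc
    have hcases := abs_sum_one hadj
    unfold clampZ at hc'
    have e1 : c1 s q = c1 s p + 1 := by omega
    have e2 : c2 s q = c2 s p := by omega
    have e3 : m ≤ c1 s p := by omega
    have e4 : c1 s p < m + n := by omega
    have hb : b ≤ t s(p, q) := hg.1 p q e1 e2 e3 e4 hp
    have e5 : clampZ m n (c1 s q) - clampZ m n (c1 s p) = 1 := by unfold clampZ; omega
    have e6 : ((clampZ m n (c1 s q) : ℤ) : ℝ) - ((clampZ m n (c1 s p) : ℤ) : ℝ) = 1 := by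
      exact_mod_cast e5
    rw [e6, mul_one]
    exact_mod_cast hb

lemma sum_lb {s : Bool} {w n : ℕ} {a b : ℝ≥0} {t : Sym2 (ℤ × ℤ) → ℝ≥0} {m : ℤ}
    (hg : Good s w n a b t m) (u : ℕ → ℤ × ℤ) (hadj : ∀ k, Adj (u k) (u (k + 1)))
    (hconf : ∀ k, |c2 s (u k)| ≤ w) (i j : ℕ) (hij : i ≤ j) :
    (b : ℝ) * (((clampZ m n (c1 s (u j)) : ℤ) : ℝ) - ((clampZ m n (c1 s (u i)) : ℤ) : ℝ))
        ≤ ∑ k ∈ Finset.Ico i j, (t s(u k, u (k + 1)) : ℝ) ∧
    (b : ℝ) * (((clampZ m n (c1 s (u i)) : ℤ) : ℝ) - ((clampZ m n (c1 s (u j)) : ℤ) : ℝ))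
        ≤ ∑ k ∈ Finset.Ico i j, (t s(u k, u (k + 1)) : ℝ) := by
  induction j, hij using Nat.le_induction with
  | base => simp
  | succ j hij ih =>
    rw [Finset.sum_Ico_succ_top hij]
    have s1 := step_lb hg (hadj j) (hconf j)
    have s2 := step_lb hg (adj_symm (hadj j)) (hconf (j + 1))
    rw [Sym2.eq_swap] at s2
    constructor
    · linarith [ih.1]
    · linarith [ih.2]

/-- Crossing a good block inside the strip costs at least `n * b`. -/
lemma cross_lb {s : Bool} {w n : ℕ} {a b : ℝ≥0} {t : Sym2 (ℤ × ℤ) → ℝ≥0} {m : ℤ}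
    (hg : Good s w n a b t m) (u : ℕ → ℤ × ℤ) (hadj : ∀ k, Adj (u k) (u (k + 1)))
    (hconf : ∀ k, |c2 s (u k)| ≤ w) (i j : ℕ) (hij : i ≤ j)
    (hcol : (c1 s (u i) = m ∧ c1 s (u j) = m + n) ∨ (c1 s (u i) = m + n ∧ c1 s (u j) = m)) :
    (n : ℝ) * b ≤ ∑ k ∈ Finset.Ico i j, (t s(u k, u (k + 1)) : ℝ) := by
  have h := sum_lb hg u hadj hconf i j hij
  have cm : clampZ m n m = m := by unfold clampZ; omega
  have cn : clampZ m n (m + n) = m + n := by unfold clampZ; omega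
  rcases hcol with ⟨h1, h2⟩ | ⟨h1, h2⟩
  · have := h.1
    rw [h1, h2, cm, cn] at this
    push_cast at this
    linarith
  · have := h.2
    rw [h1, h2, cm, cn] at this
    push_cast at this
    linarith

/-- There is a nearest-neighbour path from `x` to `z` of cost at most `c`. -/
def Reach (t : Sym2 (ℤ × ℤ) → ℝ≥0) (x z : ℤ × ℤ) (c : ℝ≥0) : Prop :=
  ∃ l : List (ℤ × ℤ), l.IsChain Adj ∧ l.head? = some x ∧ l.getLast? = some z ∧ cost t l ≤ c

lemma reach_refl (t : Sym2 (ℤ × ℤ) → ℝ≥0) (x : ℤ × ℤ) : Reach t x x 0 :=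
  ⟨[x], by simp, by simp, by simp, by simp [cost]⟩

lemma reach_mono {t : Sym2 (ℤ × ℤ) → ℝ≥0} {x z : ℤ × ℤ} {c c' : ℝ≥0} (h : Reach t x z c)
    (hc : c ≤ c') : Reach t x z c' := by
  obtain ⟨l, h1, h2, h3, h4⟩ := h
  exact ⟨l, h1, h2, h3, h4.trans hc⟩

lemma reach_cons {t : Sym2 (ℤ × ℤ) → ℝ≥0} {x y z : ℤ × ℤ} {c : ℝ≥0} (hxy : Adj x y)
    (h : Reach t y z c) : Reach t x z (t s(x, y) + c) := by
  obtain ⟨l, h1, h2, h3, h4⟩ := h
  cases l with
  | nil => simp at h2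
  | cons y' l' =>
    have hy : y' = y := by simpa using h2
    subst hy
    refine ⟨x :: y' :: l', ?_, by simp, ?_, ?_⟩
    · simp [h1, hxy]
    · simpa using h3
    · show t s(x, y') + cost t (y' :: l') ≤ t s(x, y') + c
      exact add_le_add_right h4 _

lemma passage_le_of_reach {t : Sym2 (ℤ × ℤ) → ℝ≥0} {x z : ℤ × ℤ} {c : ℝ≥0}
    (h : Reach t x z c) : passage t x z ≤ c := by
  obtain ⟨l, h1, h2, h3, h4⟩ := h
  unfold passage
  exact (ciInf_le' _ (⟨l, h1, h2, h3⟩ :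
    {l : List (ℤ × ℤ) // l.IsChain Adj ∧ l.head? = some x ∧ l.getLast? = some z})).trans h4

lemma reach_walk (t : Sym2 (ℤ × ℤ) → ℝ≥0) (a : ℝ≥0) (z : ℤ × ℤ) (C : ℝ≥0) :
    ∀ (d : ℕ) (g : ℕ → ℤ × ℤ), (∀ k, k < d → Adj (g k) (g (k + 1)) ∧ t s(g k, g (k + 1)) ≤ a) →
      Reach t (g d) z C → Reach t (g 0) z (d * a + C) := by
  intro d
  induction d with
  | zero => intro g _ h; simpa using h
  | succ d ih =>
    intro g hg h
    have h1 := ih (fun k => g (k + 1)) (fun k hk => hg (k + 1) (by omega)) h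
    have h2 := reach_cons (hg 0 (by omega)).1 h1
    refine reach_mono h2 ?_
    have := (hg 0 (by omega)).2
    push_cast
    calc t s(g 0, g (0 + 1)) + (d * a + C) ≤ a + (d * a + C) := add_le_add_left this _
      _ = (d + 1) * a + C := by ring

/-- In a good block, two strip points on the two boundary columns are joined by a cheap
path running above the strip. -/
lemma detour {s : Bool} {w n : ℕ} {a b : ℝ≥0} {t : Sym2 (ℤ × ℤ) → ℝ≥0} {m : ℤ}
    (hg : Good s w n a b t m) (p q : ℤ × ℤ) (hp : |c2 s p| ≤ w) (hq : |c2 s q| ≤ w)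
    (hcol : (c1 s p = m ∧ c1 s q = m + n) ∨ (c1 s p = m + n ∧ c1 s q = m)) :
    passage t p q ≤ ((n : ℝ≥0) + 4 * w + 2) * a := by
  obtain ⟨hp1, hp2⟩ := abs_le.mp hp
  obtain ⟨hq1, hq2⟩ := abs_le.mp hq
  have hcp : c1 s p = m ∨ c1 s p = m + n := by tauto
  have hcq : c1 s q = m ∨ c1 s q = m + n := by tauto
  -- phase 3: down the column of q
  have r3 : Reach t (mk s (c1 s q) (w + 1)) q (((w + 1 - c2 s q).toNat : ℝ≥0) * a) := by
    have h := reach_walk t a q 0 (w + 1 - c2 s q).toNat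
      (fun k => mk s (c1 s q) (w + 1 - k)) ?_ ?_
    · simpa using h
    · intro k hk
      have hk' : (k : ℤ) < w + 1 - c2 s q := by omega
      have e : (w : ℤ) + 1 - (k : ℤ) = ((w : ℤ) + 1 - ((k + 1 : ℕ) : ℤ)) + 1 := by
        push_cast; ring
      constructor
      · show Adj (mk s (c1 s q) (w + 1 - k)) (mk s (c1 s q) (w + 1 - ((k + 1 : ℕ) : ℤ)))
        rw [e]
        exact adj_symm (adj_v s _ _)
      · show t s(mk s (c1 s q) (w + 1 - k), mk s (c1 s q) (w + 1 - ((k + 1 : ℕ) : ℤ))) ≤ a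
        rw [Sym2.eq_swap]
        apply hg.2.2
        · simp
        · simp only [c2_mk]; push_cast; ring
        · simpa using hcq
        · simp only [c2_mk]; push_cast; omega
        · simp only [c2_mk]; push_cast; omega
    · have e : (w : ℤ) + 1 - ((w + 1 - c2 s q).toNat : ℤ) = c2 s q := by
        rw [Int.toNat_of_nonneg (by omega)]; ring
      show Reach t (mk s (c1 s q) (w + 1 - ((w + 1 - c2 s q).toNat : ℤ))) q 0
      rw [e, mk_c]
      exact reach_refl t q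
  -- phase 2: along the row above the strip
  have r2 : Reach t (mk s (c1 s p) (w + 1)) q
      ((n : ℝ≥0) * a + ((w + 1 - c2 s q).toNat : ℝ≥0) * a) := by
    rcases hcol with ⟨h1, h2⟩ | ⟨h1, h2⟩
    · have h := reach_walk t a q (((w + 1 - c2 s q).toNat : ℝ≥0) * a) n
        (fun k => mk s (m + k) (w + 1)) ?_ ?_
      · simpa [h1] using h
      · intro k hk
        have e : m + ((k + 1 : ℕ) : ℤ) = m + k + 1 := by push_cast; ring
        constructor
        · show Adj (mk s (m + k) (w + 1)) (mk s (m + ((k + 1 : ℕ) : ℤ)) (w + 1))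
          rw [e]; exact adj_h s _ _
        · show t s(mk s (m + k) (w + 1), mk s (m + ((k + 1 : ℕ) : ℤ)) (w + 1)) ≤ a
          apply hg.2.1
          · simp only [c1_mk]; push_cast; ring
          · simp
          · simp
          · simp only [c1_mk]; omega
          · simp
      · show Reach t (mk s (m + n) (w + 1)) q _
        rw [← h2]; exact r3
    · have h := reach_walk t a q (((w + 1 - c2 s q).toNat : ℝ≥0) * a) n
        (fun k => mk s (m + n - k) (w + 1)) ?_ ?_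
      · simpa [h1] using h
      · intro k hk
        have e : m + n - (k : ℤ) = (m + n - ((k + 1 : ℕ) : ℤ)) + 1 := by push_cast; ring
        constructor
        · show Adj (mk s (m + n - k) (w + 1)) (mk s (m + n - ((k + 1 : ℕ) : ℤ)) (w + 1))
          rw [e]; exact adj_symm (adj_h s _ _)
        · show t s(mk s (m + n - k) (w + 1), mk s (m + n - ((k + 1 : ℕ) : ℤ)) (w + 1)) ≤ a
          rw [Sym2.eq_swap]
          apply hg.2.1
          · simp only [c1_mk]; push_cast; ring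
          · simp
          · simp only [c1_mk]; push_cast; omega
          · simp only [c1_mk]; push_cast; omega
          · simp
      · show Reach t (mk s (m + n - (n : ℤ)) (w + 1)) q _
        have e : m + (n : ℤ) - n = c1 s q := by rw [h2]; ring
        rw [e]; exact r3
  -- phase 1: up the column of p
  have r1 : Reach t p q (((w + 1 - c2 s p).toNat : ℝ≥0) * a +
      ((n : ℝ≥0) * a + ((w + 1 - c2 s q).toNat : ℝ≥0) * a)) := by
    have h := reach_walk t a q ((n : ℝ≥0) * a + ((w + 1 - c2 s q).toNat : ℝ≥0) * a)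
      (w + 1 - c2 s p).toNat (fun k => mk s (c1 s p) (c2 s p + k)) ?_ ?_
    · simpa [mk_c] using h
    · intro k hk
      have hk' : (k : ℤ) < w + 1 - c2 s p := by omega
      have e : c2 s p + ((k + 1 : ℕ) : ℤ) = c2 s p + k + 1 := by push_cast; ring
      constructor
      · show Adj (mk s (c1 s p) (c2 s p + k)) (mk s (c1 s p) (c2 s p + ((k + 1 : ℕ) : ℤ)))
        rw [e]; exact adj_v s _ _
      · show t s(mk s (c1 s p) (c2 s p + k), mk s (c1 s p) (c2 s p + ((k + 1 : ℕ) : ℤ))) ≤ a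
        apply hg.2.2
        · simp
        · simp only [c2_mk]; push_cast; ring
        · simpa using hcp
        · simp only [c2_mk]; omega
        · simp only [c2_mk]; omega
    · have e : c2 s p + ((w + 1 - c2 s p).toNat : ℤ) = w + 1 := by
        rw [Int.toNat_of_nonneg (by omega)]; ring
      show Reach t (mk s (c1 s p) (c2 s p + ((w + 1 - c2 s p).toNat : ℤ))) q _
      rw [e]; exact r2
  refine (passage_le_of_reach r1).trans ?_
  have d1 : (w + 1 - c2 s p).toNat ≤ 2 * w + 1 := by omega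
  have d3 : (w + 1 - c2 s q).toNat ≤ 2 * w + 1 := by omega
  have d : (w + 1 - c2 s p).toNat + n + (w + 1 - c2 s q).toNat ≤ n + 4 * w + 2 := by omega
  have d' : (((w + 1 - c2 s p).toNat : ℝ≥0) + n + ((w + 1 - c2 s q).toNat : ℝ≥0))
      ≤ (n : ℝ≥0) + 4 * w + 2 := by exact_mod_cast d
  calc ((w + 1 - c2 s p).toNat : ℝ≥0) * a +
      ((n : ℝ≥0) * a + ((w + 1 - c2 s q).toNat : ℝ≥0) * a)
      = (((w + 1 - c2 s p).toNat : ℝ≥0) + n + ((w + 1 - c2 s q).toNat : ℝ≥0)) * a := by ring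
    _ ≤ ((n : ℝ≥0) + 4 * w + 2) * a := by gcongr

/-- A stretch of a strip-confined path that joins the two boundary columns of a good block is
strictly more expensive than the passage time between its endpoints (in either order). -/
lemma block_contra {s : Bool} {w n : ℕ} {a b : ℝ≥0} {t : Sym2 (ℤ × ℤ) → ℝ≥0} {m : ℤ}
    (hg : Good s w n a b t m) (hab : ((n : ℝ≥0) + 4 * w + 2) * a < n * b)
    (u : ℕ → ℤ × ℤ) (hadj : ∀ k, Adj (u k) (u (k + 1)))
    (hconf : ∀ k, |c2 s (u k)| ≤ w) (i j : ℕ) (hij : i ≤ j)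
    (hcol : (c1 s (u i) = m ∧ c1 s (u j) = m + n) ∨ (c1 s (u i) = m + n ∧ c1 s (u j) = m)) :
    passage t (u i) (u j) < ∑ k ∈ Finset.Ico i j, t s(u k, u (k + 1)) ∧
    passage t (u j) (u i) < ∑ k ∈ Finset.Ico i j, t s(u k, u (k + 1)) := by
  have lb := cross_lb hg u hadj hconf i j hij hcol
  have lb' : (n : ℝ≥0) * b ≤ ∑ k ∈ Finset.Ico i j, t s(u k, u (k + 1)) := by
    apply NNReal.coe_le_coe.mp
    push_cast
    exact lb
  have hcol' : (c1 s (u j) = m ∧ c1 s (u i) = m + n) ∨ (c1 s (u j) = m + n ∧ c1 s (u i) = m) := by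
    tauto
  exact ⟨lt_of_lt_of_le (lt_of_le_of_lt (detour hg _ _ (hconf i) (hconf j) hcol) hab) lb',
    lt_of_lt_of_le (lt_of_le_of_lt (detour hg _ _ (hconf j) (hconf i) hcol') hab) lb'⟩

lemma ivt_up (f : ℕ → ℤ) (hf : ∀ k, |f (k + 1) - f k| ≤ 1) (x : ℤ) :
    ∀ i, f 0 ≤ x → x ≤ f i → ∃ k, f k = x := by
  intro i
  induction i with
  | zero => intro h1 h2; exact ⟨0, le_antisymm h1 h2⟩
  | succ i ih =>
    intro h1 h2
    by_cases h : x ≤ f i
    · exact ih h1 h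
    · have := abs_le.mp (hf i)
      exact ⟨i + 1, by omega⟩

lemma ivt_down (f : ℕ → ℤ) (hf : ∀ k, |f (k + 1) - f k| ≤ 1) (x : ℤ) :
    ∀ i, f i ≤ x → x ≤ f 0 → ∃ k, f k = x := by
  intro i
  induction i with
  | zero => intro h1 h2; exact ⟨0, le_antisymm h1 h2⟩
  | succ i ih =>
    intro h1 h2
    by_cases h : f i ≤ x
    · exact ih h h2
    · have := abs_le.mp (hf i)
      exact ⟨i + 1, by omega⟩

lemma step_c1 (s : Bool) {p q : ℤ × ℤ} (h : Adj p q) : |c1 s q - c1 s p| ≤ 1 := by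
  rw [adj_iff s] at h
  rw [abs_sub_comm]
  have := abs_nonneg (c2 s p - c2 s q)
  omega

lemma escape_box (s : Bool) (w : ℕ) (u : ℕ → ℤ × ℤ) (hinj : Function.Injective u)
    (hconf : ∀ k, |c2 s (u k)| ≤ w) (A B : ℤ) : ∃ i, c1 s (u i) < A ∨ B < c1 s (u i) := by
  by_contra hcon
  push Not at hcon
  have hsub : Set.range u ⊆
      ((Finset.Icc A B ×ˢ Finset.Icc (-(w : ℤ)) w).image (fun p : ℤ × ℤ => mk s p.1 p.2) :
        Set (ℤ × ℤ)) := by
    rintro _ ⟨k, rfl⟩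
    have h2 := abs_le.mp (hconf k)
    simp only [Finset.coe_image, Set.mem_image, Finset.mem_coe, Finset.mem_product,
      Finset.mem_Icc]
    exact ⟨(c1 s (u k), c2 s (u k)), ⟨⟨(hcon k).1, (hcon k).2⟩, h2.1, h2.2⟩, mk_c s (u k)⟩
  exact (Set.infinite_range_of_injective hinj) ((Finset.finite_toSet _).subset hsub)

/-- Good blocks exist arbitrarily far in both directions along the strip. -/
def GoodIO (s : Bool) (w n : ℕ) (a b : ℝ≥0) (t : Sym2 (ℤ × ℤ) → ℝ≥0) : Prop :=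
  (∀ X : ℤ, ∃ m, X ≤ m ∧ Good s w n a b t m) ∧ (∀ X : ℤ, ∃ m, m + n ≤ X ∧ Good s w n a b t m)

/-- Deterministic core: with good blocks on both sides, no injective nearest-neighbour
sequence whose stretches are geodesic (in either orientation) stays in the strip. -/
theorem no_confined {s : Bool} {w n : ℕ} {a b : ℝ≥0} {t : Sym2 (ℤ × ℤ) → ℝ≥0} (hn : 1 ≤ n)
    (hab : ((n : ℝ≥0) + 4 * w + 2) * a < n * b) (hio : GoodIO s w n a b t)
    (u : ℕ → ℤ × ℤ) (hinj : Function.Injective u) (hadj : ∀ i, Adj (u i) (u (i + 1)))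
    (hgeo : ∀ i j, i < j →
      ∑ k ∈ Finset.Ico i j, t s(u k, u (k + 1)) = passage t (u i) (u j) ∨
      ∑ k ∈ Finset.Ico i j, t s(u k, u (k + 1)) = passage t (u j) (u i)) :
    ∃ i, (w : ℤ) < |c2 s (u i)| := by
  by_contra hcon
  push Not at hcon
  have hf : ∀ k, |c1 s (u (k + 1)) - c1 s (u k)| ≤ 1 := fun k => step_c1 s (hadj k)
  have fin : ∀ m0 : ℤ, Good s w n a b t m0 → ∀ k1 k2 : ℕ, c1 s (u k1) = m0 →
      c1 s (u k2) = m0 + n → False := by
    intro m0 hg k1 k2 h1 h2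
    have hne : k1 ≠ k2 := by
      rintro rfl
      rw [h1] at h2
      have : (1 : ℤ) ≤ n := by exact_mod_cast hn
      omega
    rcases lt_or_gt_of_ne hne with hlt | hlt
    · have hb := block_contra hg hab u hadj hcon k1 k2 hlt.le (Or.inl ⟨h1, h2⟩)
      rcases hgeo k1 k2 hlt with e | e
      · exact absurd e (ne_of_gt hb.1)
      · exact absurd e (ne_of_gt hb.2)
    · have hb := block_contra hg hab u hadj hcon k2 k1 hlt.le (Or.inr ⟨h2, h1⟩)
      rcases hgeo k2 k1 hlt with e | e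
      · exact absurd e (ne_of_gt hb.1)
      · exact absurd e (ne_of_gt hb.2)
  obtain ⟨m, hm, hgm⟩ := hio.1 (c1 s (u 0))
  obtain ⟨m', hm', hgm'⟩ := hio.2 (c1 s (u 0))
  obtain ⟨i, hi⟩ := escape_box s w u hinj hcon m' (m + n)
  have hn' : (0 : ℤ) ≤ n := Int.natCast_nonneg n
  rcases hi with hi | hi
  · obtain ⟨k1, hk1⟩ := ivt_down (fun k => c1 s (u k)) hf m' i (le_of_lt hi) (by omega)
    obtain ⟨k2, hk2⟩ := ivt_down (fun k => c1 s (u k)) hf (m' + n) i (by omega) hm'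
    exact fin m' hgm' k1 k2 hk1 hk2
  · obtain ⟨k1, hk1⟩ := ivt_up (fun k => c1 s (u k)) hf m i hm (by omega)
    obtain ⟨k2, hk2⟩ := ivt_up (fun k => c1 s (u k)) hf (m + n) i (by omega) (le_of_lt hi)
    exact fin m hgm k1 k2 hk1 hk2

end Vale.Agent.Helper23.P158
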