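import Mathlib
import Vale.Agent.Helper23.P158.Det

namespace Vale.Agent.Helper23.P158

open scoped NNReal

/-- Frame with an optional reflection of the second coordinate. -/
def fmk (s f : Bool) (x y : ℤ) : ℤ × ℤ := mk s x (if f then -y else y)
/-- Second frame coordinate, with the optional reflection. -/
def fc2 (s f : Bool) (u : ℤ × ℤ) : ℤ := if f then -(c2 s u) else c2 s u

@[simp] lemma c1_fmk (s f : Bool) (x y : ℤ) : c1 s (fmk s f x y) = x := by simp [fmk]
@[simp] lemma fc2_fmk (s f : Bool) (x y : ℤ) : fc2 s f (fmk s f x y) = y := by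
  cases f <;> simp [fmk, fc2]
lemma fmk_c (s f : Bool) (u : ℤ × ℤ) : fmk s f (c1 s u) (fc2 s f u) = u := by
  cases f <;> simp [fmk, fc2, mk_c]

lemma fext_c (s f : Bool) {u v : ℤ × ℤ} (h1 : c1 s u = c1 s v) (h2 : fc2 s f u = fc2 s f v) :
    u = v := by
  rw [← fmk_c s f u, ← fmk_c s f v, h1, h2]

lemma fadj_iff (s f : Bool) (u v : ℤ × ℤ) :
    Adj u v ↔ |c1 s u - c1 s v| + |fc2 s f u - fc2 s f v| = 1 := by
  rw [adj_iff s]
  cases f
  · simp [fc2]
  · have : |-(c2 s u) - -(c2 s v)| = |c2 s u - c2 s v| := by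
      rw [← abs_neg]; congr 1; ring
    show |c1 s u - c1 s v| + |c2 s u - c2 s v| = 1 ↔
      |c1 s u - c1 s v| + |-(c2 s u) - -(c2 s v)| = 1
    rw [this]

lemma fadj_h (s f : Bool) (x y : ℤ) : Adj (fmk s f x y) (fmk s f (x + 1) y) := by
  rw [fadj_iff s f]; simp

lemma fadj_v (s f : Bool) (x y : ℤ) : Adj (fmk s f x y) (fmk s f x (y + 1)) := by
  rw [fadj_iff s f]; simp

/-- Integer staircase approximating the line of slope `r / n`. -/
def rho (r : ℤ) (n : ℕ) (j : ℤ) : ℤ := r * j / n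

lemma rho_zero (r : ℤ) (n : ℕ) : rho r n 0 = 0 := by simp [rho]

lemma rho_n (r : ℤ) (n : ℕ) (hn : 1 ≤ n) : rho r n n = r := by
  unfold rho
  exact Int.mul_ediv_cancel _ (by exact_mod_cast (by omega : n ≠ 0))

lemma rho_mono (r : ℤ) (n : ℕ) (hn : 1 ≤ n) (hr : 0 ≤ r) {j j' : ℤ} (h : j ≤ j') :
    rho r n j ≤ rho r n j' := by
  unfold rho
  have hn' : (0 : ℤ) < n := by exact_mod_cast hn
  exact Int.ediv_le_ediv hn' (mul_le_mul_of_nonneg_left h hr)

lemma rho_bounds (r : ℤ) (n : ℕ) (hn : 1 ≤ n) (hr : 0 ≤ r) {j : ℤ} (h0 : 0 ≤ j) (h1 : j ≤ n) :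
    0 ≤ rho r n j ∧ rho r n j ≤ r := by
  have a := rho_mono r n hn hr h0
  have b := rho_mono r n hn hr h1
  rw [rho_zero] at a
  rw [rho_n r n hn] at b
  exact ⟨a, b⟩

lemma rho_floor (r : ℤ) (n : ℕ) (hn : 1 ≤ n) (j : ℤ) :
    rho r n j * n ≤ r * j ∧ r * j < (rho r n j + 1) * n := by
  unfold rho
  have hn' : (0 : ℤ) < n := by exact_mod_cast hn
  exact ⟨Int.ediv_mul_le _ hn'.ne', Int.lt_ediv_add_one_mul_self _ hn'⟩

/-- Block event for slanted strips, in intrinsic form. Inside the box of the block, the edges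
of a fat staircase region around the segment from `(m, z)` to `(m + n, z + r)` are expensive
(horizontal ones, and vertical ones not on the two boundary columns), all other edges of the
box are cheap. -/
def Good2 (s f : Bool) (W n : ℕ) (a b : ℝ≥0) (t : Sym2 (ℤ × ℤ) → ℝ≥0) (m z r : ℤ) : Prop :=
  (∀ p q, c1 s q = c1 s p + 1 → fc2 s f q = fc2 s f p → m ≤ c1 s p → c1 s p < m + n →
      z - (W + 5) ≤ fc2 s f p → fc2 s f p ≤ z + r + (W + 5) + 1 →
      ((|fc2 s f p - z - rho r n (c1 s p - m)| ≤ W + 5 → b ≤ t s(p, q)) ∧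
       (¬ |fc2 s f p - z - rho r n (c1 s p - m)| ≤ W + 5 → t s(p, q) ≤ a))) ∧
  (∀ p q, c1 s q = c1 s p → fc2 s f q = fc2 s f p + 1 → m ≤ c1 s p → c1 s p ≤ m + n →
      z - (W + 5) ≤ fc2 s f p → fc2 s f p ≤ z + r + (W + 5) →
      (((m < c1 s p ∧ c1 s p < m + n ∧ |fc2 s f p - z - rho r n (c1 s p - m)| ≤ W + 5) →
          b ≤ t s(p, q)) ∧
       (¬ (m < c1 s p ∧ c1 s p < m + n ∧ |fc2 s f p - z - rho r n (c1 s p - m)| ≤ W + 5) →
          t s(p, q) ≤ a)))

/-- The block with integer parameters `(m, z, r)` matches the line of slope `σ` through the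
origin over the window of `n` columns starting at `m`. -/
def Match (σ : ℝ) (n : ℕ) (m z r : ℤ) : Prop :=
  |σ * m - z| ≤ 2 ∧ |σ * n - r| ≤ 2 ∧ 0 ≤ r ∧ r ≤ n

lemma strip_in_R {σ : ℝ} {W n : ℕ} {m z r : ℤ} (hn : 1 ≤ n) (hM : Match σ n m z r)
    (x y : ℤ) (hx0 : m ≤ x) (hx1 : x ≤ m + n) (hy : |(y : ℝ) - σ * x| ≤ W) :
    |y - z - rho r n (x - m)| ≤ W + 5 := by
  obtain ⟨f1, f2⟩ := rho_floor r n hn (x - m)
  have f1' : (rho r n (x - m) : ℝ) * n ≤ r * ((x : ℝ) - m) := by exact_mod_cast f1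
  have f2' : (r : ℝ) * ((x : ℝ) - m) < ((rho r n (x - m) : ℝ) + 1) * n := by exact_mod_cast f2
  obtain ⟨m1, m2⟩ := abs_le.mp hM.1
  obtain ⟨n1, n2⟩ := abs_le.mp hM.2.1
  obtain ⟨y1, y2⟩ := abs_le.mp hy
  have hnpos : (0 : ℝ) < n := by exact_mod_cast hn
  have hJ0 : (0 : ℝ) ≤ (x : ℝ) - m := by
    have : (m : ℝ) ≤ x := by exact_mod_cast hx0
    linarith
  have hJ1 : (x : ℝ) - m ≤ n := by
    have : (x : ℝ) ≤ m + n := by exact_mod_cast hx1
    linarith
  have e1 : 0 ≤ (σ * n - r + 2) * ((x : ℝ) - m) := mul_nonneg (by linarith) hJ0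
  have e2 : 0 ≤ (r + 2 - σ * n) * ((x : ℝ) - m) := mul_nonneg (by linarith) hJ0
  have A : 0 ≤ (σ * ((x : ℝ) - m) - rho r n (x - m) + 2) * n := by nlinarith
  have B : 0 ≤ ((rho r n (x - m) : ℝ) + 3 - σ * ((x : ℝ) - m)) * n := by nlinarith
  have A' : 0 ≤ σ * ((x : ℝ) - m) - rho r n (x - m) + 2 := nonneg_of_mul_nonneg_left A hnpos
  have B' : 0 ≤ (rho r n (x - m) : ℝ) + 3 - σ * ((x : ℝ) - m) :=
    nonneg_of_mul_nonneg_left B hnpos
  rw [abs_le]
  constructor
  · have : (-((W : ℝ) + 5)) ≤ (y : ℝ) - z - rho r n (x - m) := by linarith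
    exact_mod_cast this
  · have : (y : ℝ) - z - rho r n (x - m) ≤ (W : ℝ) + 5 := by linarith
    exact_mod_cast this

/-- Vertical potential: progress between the top of the strip at the left end of the window
and the bottom of the strip at its right end. -/
def gY (W : ℕ) (z r : ℤ) (y : ℤ) : ℤ := max (z + W + 5) (min y (z + r - W - 6))

/-- Potential: horizontal progress inside the window plus the vertical potential. -/
def Phi (s f : Bool) (W n : ℕ) (m z r : ℤ) (u : ℤ × ℤ) : ℤ :=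
  clampZ m n (c1 s u) + gY W z r (fc2 s f u)

lemma step2 {s f : Bool} {W n : ℕ} {a b : ℝ≥0} {t : Sym2 (ℤ × ℤ) → ℝ≥0} {m z r : ℤ} {σ : ℝ}
    (hn : 1 ≤ n) (hσ : 0 ≤ σ) (hM : Match σ n m z r) (hg : Good2 s f W n a b t m z r)
    {p q : ℤ × ℤ} (hadj : Adj p q) (hp : |(fc2 s f p : ℝ) - σ * c1 s p| ≤ W)
    (hq : |(fc2 s f q : ℝ) - σ * c1 s q| ≤ W) :
    (b : ℝ) * (((Phi s f W n m z r q : ℤ) : ℝ) - ((Phi s f W n m z r p : ℤ) : ℝ))
      ≤ t s(p, q) := by
  rw [fadj_iff s f] at hadj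
  have h2 : (0 : ℝ) ≤ t s(p, q) := NNReal.coe_nonneg _
  have h3 : (0 : ℝ) ≤ b := NNReal.coe_nonneg _
  by_cases hc : Phi s f W n m z r q ≤ Phi s f W n m z r p
  · have : ((Phi s f W n m z r q : ℤ) : ℝ) ≤ ((Phi s f W n m z r p : ℤ) : ℝ) := by
      exact_mod_cast hc
    nlinarith
  · have hc' : Phi s f W n m z r p < Phi s f W n m z r q := lt_of_not_ge hc
    have hcases := abs_sum_one hadj
    have hr0 := hM.2.2.1
    obtain ⟨m1, m2⟩ := abs_le.mp hM.1
    obtain ⟨n1, n2⟩ := abs_le.mp hM.2.1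
    obtain ⟨p1, p2⟩ := abs_le.mp hp
    obtain ⟨q1, q2⟩ := abs_le.mp hq
    have hb : b ≤ t s(p, q) := by
      rcases hcases with ⟨e1, e2⟩ | ⟨e1, e2⟩ | ⟨e1, e2⟩ | ⟨e1, e2⟩
      · -- c1 q = c1 p - 1 : potential does not increase
        exfalso
        have e2' : fc2 s f q = fc2 s f p := by omega
        unfold Phi clampZ at hc'
        rw [e2'] at hc'
        omega
      · -- c1 q = c1 p + 1
        have e1' : c1 s q = c1 s p + 1 := by omega
        have e2' : fc2 s f q = fc2 s f p := by omega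
        have hx : m ≤ c1 s p ∧ c1 s p < m + n := by
          unfold Phi clampZ at hc'
          rw [e2', e1'] at hc'
          omega
        have hR := strip_in_R hn hM (c1 s p) (fc2 s f p) hx.1 hx.2.le hp
        have hρ := rho_bounds r n hn hr0 (j := c1 s p - m) (by omega) (by omega)
        obtain ⟨r1, r2⟩ := abs_le.mp hR
        exact (hg.1 p q e1' e2' hx.1 hx.2 (by omega) (by omega)).1 hR
      · -- fc2 q = fc2 p - 1 : potential does not increase
        exfalso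
        have e1' : c1 s q = c1 s p := by omega
        have e2' : fc2 s f q = fc2 s f p - 1 := by omega
        unfold Phi gY at hc'
        rw [e1', e2'] at hc'
        omega
      · -- fc2 q = fc2 p + 1
        have e1' : c1 s q = c1 s p := by omega
        have e2' : fc2 s f q = fc2 s f p + 1 := by omega
        have hy : z + W + 5 ≤ fc2 s f p ∧ fc2 s f p + 1 ≤ z + r - W - 6 := by
          unfold Phi gY at hc'
          rw [e1', e2'] at hc'
          omega
        have hy1 : (z : ℝ) + W + 5 ≤ (fc2 s f p : ℝ) := by exact_mod_cast hy.1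
        have hy2 : (fc2 s f p : ℝ) + 1 ≤ (z : ℝ) + r - W - 6 := by exact_mod_cast hy.2
        have q1' : -(W : ℝ) ≤ (fc2 s f p : ℝ) + 1 - σ * c1 s p := by
          have := q1
          rw [e1', e2'] at this
          push_cast at this
          linarith
        have hxm : m < c1 s p := by
          by_contra hcon
          have hle : ((c1 s p : ℤ) : ℝ) - m ≤ 0 := by
            have : ((c1 s p : ℤ) : ℝ) ≤ m := by exact_mod_cast (not_lt.mp hcon)
            linarith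
          have := mul_nonpos_of_nonneg_of_nonpos hσ hle
          nlinarith
        have hxn : c1 s p < m + n := by
          by_contra hcon
          have hle : (m : ℝ) + n - ((c1 s p : ℤ) : ℝ) ≤ 0 := by
            have : (m : ℝ) + n ≤ ((c1 s p : ℤ) : ℝ) := by exact_mod_cast (not_lt.mp hcon)
            linarith
          have := mul_nonpos_of_nonneg_of_nonpos hσ hle
          nlinarith
        have hR := strip_in_R hn hM (c1 s p) (fc2 s f p) hxm.le hxn.le hp
        exact (hg.2 p q e1' e2' hxm.le hxn.le (by omega) (by omega)).1 ⟨hxm, hxn, hR⟩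
    have e5 : Phi s f W n m z r q - Phi s f W n m z r p = 1 := by
      rcases hcases with ⟨e1, e2⟩ | ⟨e1, e2⟩ | ⟨e1, e2⟩ | ⟨e1, e2⟩
      · have e2' : fc2 s f q = fc2 s f p := by omega
        unfold Phi clampZ at hc' ⊢
        rw [e2'] at hc' ⊢
        omega
      · have e2' : fc2 s f q = fc2 s f p := by omega
        unfold Phi clampZ at hc' ⊢
        rw [e2'] at hc' ⊢
        omega
      · have e1' : c1 s q = c1 s p := by omega
        unfold Phi gY at hc' ⊢
        rw [e1'] at hc' ⊢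
        omega
      · have e1' : c1 s q = c1 s p := by omega
        unfold Phi gY at hc' ⊢
        rw [e1'] at hc' ⊢
        omega
    have e6 : ((Phi s f W n m z r q : ℤ) : ℝ) - ((Phi s f W n m z r p : ℤ) : ℝ) = 1 := by
      exact_mod_cast e5
    rw [e6, mul_one]
    exact_mod_cast hb

lemma sum_lb2 {s f : Bool} {W n : ℕ} {a b : ℝ≥0} {t : Sym2 (ℤ × ℤ) → ℝ≥0} {m z r : ℤ}
    {σ : ℝ} (hn : 1 ≤ n) (hσ : 0 ≤ σ) (hM : Match σ n m z r)
    (hg : Good2 s f W n a b t m z r) (u : ℕ → ℤ × ℤ) (hadj : ∀ k, Adj (u k) (u (k + 1)))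
    (hconf : ∀ k, |(fc2 s f (u k) : ℝ) - σ * c1 s (u k)| ≤ W) (i j : ℕ) (hij : i ≤ j) :
    (b : ℝ) * (((Phi s f W n m z r (u j) : ℤ) : ℝ) - ((Phi s f W n m z r (u i) : ℤ) : ℝ))
        ≤ ∑ k ∈ Finset.Ico i j, (t s(u k, u (k + 1)) : ℝ) ∧
    (b : ℝ) * (((Phi s f W n m z r (u i) : ℤ) : ℝ) - ((Phi s f W n m z r (u j) : ℤ) : ℝ))
        ≤ ∑ k ∈ Finset.Ico i j, (t s(u k, u (k + 1)) : ℝ) := by
  induction j, hij using Nat.le_induction with
  | base => simp
  | succ j hij ih =>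
    rw [Finset.sum_Ico_succ_top hij]
    have s1 := step2 hn hσ hM hg (hadj j) (hconf j) (hconf (j + 1))
    have s2 := step2 hn hσ hM hg (adj_symm (hadj j)) (hconf (j + 1)) (hconf j)
    rw [Sym2.eq_swap] at s2
    constructor
    · linarith [ih.1]
    · linarith [ih.2]

lemma phi_left {s f : Bool} {W n : ℕ} {m z r : ℤ} {σ : ℝ} (hM : Match σ n m z r)
    {p : ℤ × ℤ} (hc : c1 s p = m) (hp : |(fc2 s f p : ℝ) - σ * c1 s p| ≤ W) :
    Phi s f W n m z r p = m + (z + W + 5) := by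
  obtain ⟨m1, m2⟩ := abs_le.mp hM.1
  obtain ⟨p1, p2⟩ := abs_le.mp hp
  rw [hc] at p2
  have : (fc2 s f p : ℝ) ≤ (z : ℝ) + W + 2 := by linarith
  have h' : fc2 s f p ≤ z + W + 2 := by exact_mod_cast this
  unfold Phi clampZ gY
  rw [hc]
  omega

lemma phi_right {s f : Bool} {W n : ℕ} {m z r : ℤ} {σ : ℝ} (hM : Match σ n m z r)
    {q : ℤ × ℤ} (hc : c1 s q = m + n) (hq : |(fc2 s f q : ℝ) - σ * c1 s q| ≤ W) :
    Phi s f W n m z r q = m + n + max (z + W + 5) (z + r - W - 6) := by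
  obtain ⟨m1, m2⟩ := abs_le.mp hM.1
  obtain ⟨n1, n2⟩ := abs_le.mp hM.2.1
  obtain ⟨q1, q2⟩ := abs_le.mp hq
  rw [hc] at q1
  push_cast at q1
  have : (z : ℝ) + r - W - 4 ≤ (fc2 s f q : ℝ) := by linarith
  have h' : z + r - W - 4 ≤ fc2 s f q := by exact_mod_cast this
  unfold Phi clampZ gY
  rw [hc]
  omega

/-- Crossing a good slanted block inside the strip costs at least
`(n + max 0 (r - 2 W - 11)) * b`. -/
lemma cross_lb2 {s f : Bool} {W n : ℕ} {a b : ℝ≥0} {t : Sym2 (ℤ × ℤ) → ℝ≥0} {m z r : ℤ}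
    {σ : ℝ} (hn : 1 ≤ n) (hσ : 0 ≤ σ) (hM : Match σ n m z r)
    (hg : Good2 s f W n a b t m z r) (u : ℕ → ℤ × ℤ) (hadj : ∀ k, Adj (u k) (u (k + 1)))
    (hconf : ∀ k, |(fc2 s f (u k) : ℝ) - σ * c1 s (u k)| ≤ W) (i j : ℕ) (hij : i ≤ j)
    (hcol : (c1 s (u i) = m ∧ c1 s (u j) = m + n) ∨ (c1 s (u i) = m + n ∧ c1 s (u j) = m)) :
    (b : ℝ) * ((n : ℝ) + ((max 0 (r - 2 * W - 11) : ℤ) : ℝ))
      ≤ ∑ k ∈ Finset.Ico i j, (t s(u k, u (k + 1)) : ℝ) := by
  have h := sum_lb2 hn hσ hM hg u hadj hconf i j hij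
  rcases hcol with ⟨h1, h2⟩ | ⟨h1, h2⟩
  · have e : Phi s f W n m z r (u j) - Phi s f W n m z r (u i)
        = n + max 0 (r - 2 * W - 11) := by
      rw [phi_left hM h1 (hconf i), phi_right hM h2 (hconf j)]; omega
    have e' : ((Phi s f W n m z r (u j) : ℤ) : ℝ) - ((Phi s f W n m z r (u i) : ℤ) : ℝ)
        = (n : ℝ) + ((max 0 (r - 2 * W - 11) : ℤ) : ℝ) := by exact_mod_cast e
    rw [← e']; exact h.1
  · have e : Phi s f W n m z r (u i) - Phi s f W n m z r (u j)
        = n + max 0 (r - 2 * W - 11) := by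
      rw [phi_left hM h2 (hconf j), phi_right hM h1 (hconf i)]; omega
    have e' : ((Phi s f W n m z r (u i) : ℤ) : ℝ) - ((Phi s f W n m z r (u j) : ℤ) : ℝ)
        = (n : ℝ) + ((max 0 (r - 2 * W - 11) : ℤ) : ℝ) := by exact_mod_cast e
    rw [← e']; exact h.2

lemma cost_snoc (t : Sym2 (ℤ × ℤ) → ℝ≥0) (x y : ℤ × ℤ) :
    ∀ l : List (ℤ × ℤ), cost t (l ++ [x, y]) = cost t (l ++ [x]) + t s(x, y) := by
  intro l
  induction l with
  | nil => simp [cost]
  | cons a l ih =>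
    cases l with
    | nil => simp [cost]
    | cons c l' =>
      show t s(a, c) + cost t (c :: (l' ++ [x, y])) = t s(a, c) + cost t (c :: (l' ++ [x])) + _
      have ih' : cost t (c :: (l' ++ [x, y])) = cost t (c :: (l' ++ [x])) + t s(x, y) := ih
      rw [ih', add_assoc]

lemma cost_reverse (t : Sym2 (ℤ × ℤ) → ℝ≥0) :
    ∀ l : List (ℤ × ℤ), cost t l.reverse = cost t l := by
  intro l
  induction l with
  | nil => simp
  | cons a l ih =>
    cases l with
    | nil => simp [cost]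
    | cons c l' =>
      have e : (a :: c :: l').reverse = l'.reverse ++ [c, a] := by simp
      rw [e, cost_snoc]
      have e2 : l'.reverse ++ [c] = (c :: l').reverse := by simp
      rw [e2, ih]
      show cost t (c :: l') + t s(c, a) = t s(a, c) + cost t (c :: l')
      rw [Sym2.eq_swap, add_comm]

lemma reach_symm {t : Sym2 (ℤ × ℤ) → ℝ≥0} {x z : ℤ × ℤ} {c : ℝ≥0} (h : Reach t x z c) :
    Reach t z x c := by
  obtain ⟨l, h1, h2, h3, h4⟩ := h
  refine ⟨l.reverse, ?_, ?_, ?_, ?_⟩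
  · rw [List.isChain_reverse]
    exact h1.imp (fun _ _ hab => adj_symm hab)
  · rw [List.head?_reverse]; exact h3
  · rw [List.getLast?_reverse]; exact h2
  · rw [cost_reverse]; exact h4

/-- The cheap staircase above the fat region of a good slanted block. -/
lemma stair {s f : Bool} {W n : ℕ} {a b : ℝ≥0} {t : Sym2 (ℤ × ℤ) → ℝ≥0} {m z r : ℤ}
    (hn : 1 ≤ n) (hr : 0 ≤ r) (hg : Good2 s f W n a b t m z r) (Q : ℤ × ℤ) (C : ℝ≥0)
    (h0 : Reach t (fmk s f (m + n) (z + r + W + 6)) Q C) :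
    ∀ k : ℕ, k ≤ n →
      Reach t (fmk s f (m + n - k) (z + rho r n (n - k) + W + 6)) Q
        ((((k : ℤ) + (r - rho r n (n - k))).toNat : ℝ≥0) * a + C) := by
  intro k
  induction k with
  | zero =>
    intro _
    have e : rho r n ((n : ℤ) - ((0 : ℕ) : ℤ)) = r := by simp [rho_n r n hn]
    rw [e]
    simpa using h0
  | succ k ih =>
    intro hk
    have ih' := ih (by omega)
    obtain ⟨J, hJ⟩ : ∃ J : ℤ, J = (n : ℤ) - ((k + 1 : ℕ) : ℤ) := ⟨_, rfl⟩
    have e1 : m + (n : ℤ) - ((k + 1 : ℕ) : ℤ) = m + J := by rw [hJ]; ring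
    have e2 : (n : ℤ) - ((k + 1 : ℕ) : ℤ) = J := hJ.symm
    have e3 : m + (n : ℤ) - (k : ℤ) = m + J + 1 := by rw [hJ]; push_cast; ring
    have e4 : (n : ℤ) - (k : ℤ) = J + 1 := by rw [hJ]; push_cast; ring
    rw [e1, e2]
    rw [e3, e4] at ih'
    have hJ0 : 0 ≤ J := by rw [hJ]; push_cast; omega
    have hJ1 : J + 1 ≤ n := by rw [hJ]; push_cast; omega
    have hmono : rho r n J ≤ rho r n (J + 1) := rho_mono r n hn hr (by omega)
    have hb0 := rho_bounds r n hn hr hJ0 (by omega)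
    have hb1 := rho_bounds r n hn hr (j := J + 1) (by omega) hJ1
    have ecancel : m + J - m = J := by ring
    -- horizontal step
    have hstep : t s(fmk s f (m + J) (z + rho r n (J + 1) + W + 6),
        fmk s f (m + J + 1) (z + rho r n (J + 1) + W + 6)) ≤ a := by
      refine (hg.1 _ _ (by simp) (by simp) (by simp; omega) (by simp; omega) (by simp; omega)
        (by simp; omega)).2 ?_
      intro h
      simp only [c1_fmk, fc2_fmk, ecancel] at h
      have := (abs_le.mp h).2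
      omega
    have r1 : Reach t (fmk s f (m + J) (z + rho r n (J + 1) + W + 6)) Q
        (a + ((((k : ℤ) + (r - rho r n (J + 1))).toNat : ℝ≥0) * a + C)) :=
      reach_mono (reach_cons (fadj_h s f _ _) ih') (add_le_add_left hstep _)
    -- vertical run
    have r2 := reach_walk t a Q (a + ((((k : ℤ) + (r - rho r n (J + 1))).toNat : ℝ≥0) * a + C))
      (rho r n (J + 1) - rho r n J).toNat
      (fun i => fmk s f (m + J) (z + rho r n J + W + 6 + i)) ?_ ?_
    · have ecn : (((k + 1 : ℕ) : ℤ) + (r - rho r n J)).toNat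
          = (rho r n (J + 1) - rho r n J).toNat + 1 + ((k : ℤ) + (r - rho r n (J + 1))).toNat := by
        push_cast; omega
      rw [ecn]
      have r2' : Reach t (fmk s f (m + J) (z + rho r n J + W + 6)) Q
          (((rho r n (J + 1) - rho r n J).toNat : ℝ≥0) * a +
            (a + ((((k : ℤ) + (r - rho r n (J + 1))).toNat : ℝ≥0) * a + C))) := by
        simpa using r2
      refine reach_mono r2' (le_of_eq ?_)
      push_cast
      ring
    · intro i hi
      have hi' : (i : ℤ) < rho r n (J + 1) - rho r n J := by omega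
      have e : z + rho r n J + W + 6 + ((i + 1 : ℕ) : ℤ) = z + rho r n J + W + 6 + i + 1 := by
        push_cast; ring
      constructor
      · show Adj (fmk s f (m + J) (z + rho r n J + W + 6 + i))
          (fmk s f (m + J) (z + rho r n J + W + 6 + ((i + 1 : ℕ) : ℤ)))
        rw [e]; exact fadj_v s f _ _
      · show t s(fmk s f (m + J) (z + rho r n J + W + 6 + i),
          fmk s f (m + J) (z + rho r n J + W + 6 + ((i + 1 : ℕ) : ℤ))) ≤ a
        rw [e]
        refine (hg.2 _ _ (by simp) (by simp) (by simp; omega) (by simp; omega)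
          (by simp; omega) (by simp; omega)).2 ?_
        rintro ⟨_, _, h⟩
        simp only [c1_fmk, fc2_fmk, ecancel] at h
        have := (abs_le.mp h).2
        omega
    · have e : z + rho r n J + W + 6 + (((rho r n (J + 1) - rho r n J).toNat : ℕ) : ℤ)
          = z + rho r n (J + 1) + W + 6 := by
        rw [Int.toNat_of_nonneg (by omega)]; ring
      show Reach t (fmk s f (m + J)
        (z + rho r n J + W + 6 + (((rho r n (J + 1) - rho r n J).toNat : ℕ) : ℤ))) Q _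
      rw [e]; exact r1

/-- In a good slanted block, a point of the fat region on the left boundary column and one
on the right boundary column are joined by a cheap path running above the fat region. -/
lemma detour2 {s f : Bool} {W n : ℕ} {a b : ℝ≥0} {t : Sym2 (ℤ × ℤ) → ℝ≥0} {m z r : ℤ}
    (hn : 1 ≤ n) (hr : 0 ≤ r) (hg : Good2 s f W n a b t m z r) (p q : ℤ × ℤ)
    (hp1 : c1 s p = m) (hp2 : |fc2 s f p - z| ≤ W + 5) (hq1 : c1 s q = m + n)
    (hq2 : |fc2 s f q - z - r| ≤ W + 5) :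
    Reach t p q (((n + r.toNat + 4 * W + 22 : ℕ) : ℝ≥0) * a) := by
  obtain ⟨hpa, hpb⟩ := abs_le.mp hp2
  obtain ⟨hqa, hqb⟩ := abs_le.mp hq2
  -- phase 3: down the right boundary column
  have r3 : Reach t (fmk s f (m + n) (z + r + W + 6)) q
      (((z + r + W + 6 - fc2 s f q).toNat : ℝ≥0) * a) := by
    have h := reach_walk t a q 0 (z + r + W + 6 - fc2 s f q).toNat
      (fun i => fmk s f (m + n) (z + r + W + 6 - i)) ?_ ?_
    · simpa using h
    · intro i hi
      have hi' : (i : ℤ) < z + r + W + 6 - fc2 s f q := by omega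
      have e : z + r + (W : ℤ) + 6 - (i : ℤ) = (z + r + W + 6 - ((i + 1 : ℕ) : ℤ)) + 1 := by
        push_cast; ring
      constructor
      · show Adj (fmk s f (m + n) (z + r + W + 6 - i))
          (fmk s f (m + n) (z + r + W + 6 - ((i + 1 : ℕ) : ℤ)))
        rw [e]; exact adj_symm (fadj_v s f _ _)
      · show t s(fmk s f (m + n) (z + r + W + 6 - i),
          fmk s f (m + n) (z + r + W + 6 - ((i + 1 : ℕ) : ℤ))) ≤ a
        rw [Sym2.eq_swap]
        refine (hg.2 _ _ (by simp) (by simp only [fc2_fmk]; push_cast; ring) (by simp)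
          (by simp) (by simp only [fc2_fmk]; push_cast; omega)
          (by simp only [fc2_fmk]; push_cast; omega)).2 ?_
        rintro ⟨_, h, _⟩
        simp at h
    · have e : z + r + (W : ℤ) + 6 - (((z + r + W + 6 - fc2 s f q).toNat : ℕ) : ℤ)
          = fc2 s f q := by
        rw [Int.toNat_of_nonneg (by omega)]; ring
      show Reach t (fmk s f (m + n)
        (z + r + W + 6 - (((z + r + W + 6 - fc2 s f q).toNat : ℕ) : ℤ))) q 0
      rw [e, ← hq1, fmk_c]
      exact reach_refl t q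
  -- phase 2: the staircase
  have r2 := stair hn hr hg q _ r3 n le_rfl
  have e0 : (n : ℤ) - (n : ℤ) = 0 := by ring
  have e0' : m + (n : ℤ) - (n : ℤ) = m := by ring
  rw [e0, e0', rho_zero] at r2
  -- phase 1: up the left boundary column
  have r1 := reach_walk t a q ((((n : ℤ) + (r - 0)).toNat : ℝ≥0) * a +
      ((z + r + W + 6 - fc2 s f q).toNat : ℝ≥0) * a) (z + W + 6 - fc2 s f p).toNat
    (fun i => fmk s f m (fc2 s f p + i)) ?_ ?_
  · have r1' : Reach t p q (((z + W + 6 - fc2 s f p).toNat : ℝ≥0) * a +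
        ((((n : ℤ) + (r - 0)).toNat : ℝ≥0) * a +
          ((z + r + W + 6 - fc2 s f q).toNat : ℝ≥0) * a)) := by
      have e : fmk s f m (fc2 s f p + ((0 : ℕ) : ℤ)) = p := by
        simp only [Nat.cast_zero, add_zero]; rw [← hp1, fmk_c]
      rw [e] at r1; exact r1
    refine reach_mono r1' ?_
    have d : (z + W + 6 - fc2 s f p).toNat + ((n : ℤ) + (r - 0)).toNat +
        (z + r + W + 6 - fc2 s f q).toNat ≤ n + r.toNat + 4 * W + 22 := by omega
    have d' : (((z + W + 6 - fc2 s f p).toNat : ℝ≥0) + (((n : ℤ) + (r - 0)).toNat : ℝ≥0) +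
        ((z + r + W + 6 - fc2 s f q).toNat : ℝ≥0)) ≤ ((n + r.toNat + 4 * W + 22 : ℕ) : ℝ≥0) := by
      exact_mod_cast d
    calc ((z + W + 6 - fc2 s f p).toNat : ℝ≥0) * a +
        ((((n : ℤ) + (r - 0)).toNat : ℝ≥0) * a +
          ((z + r + W + 6 - fc2 s f q).toNat : ℝ≥0) * a)
        = (((z + W + 6 - fc2 s f p).toNat : ℝ≥0) + (((n : ℤ) + (r - 0)).toNat : ℝ≥0) +
        ((z + r + W + 6 - fc2 s f q).toNat : ℝ≥0)) * a := by ring
      _ ≤ ((n + r.toNat + 4 * W + 22 : ℕ) : ℝ≥0) * a := by gcongr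
  · intro i hi
    have hi' : (i : ℤ) < z + W + 6 - fc2 s f p := by omega
    have e : fc2 s f p + ((i + 1 : ℕ) : ℤ) = fc2 s f p + i + 1 := by push_cast; ring
    constructor
    · show Adj (fmk s f m (fc2 s f p + i)) (fmk s f m (fc2 s f p + ((i + 1 : ℕ) : ℤ)))
      rw [e]; exact fadj_v s f _ _
    · show t s(fmk s f m (fc2 s f p + i), fmk s f m (fc2 s f p + ((i + 1 : ℕ) : ℤ))) ≤ a
      rw [e]
      refine (hg.2 _ _ (by simp) (by simp) (by simp) (by simp)
        (by simp only [fc2_fmk]; omega) (by simp only [fc2_fmk]; omega)).2 ?_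
      rintro ⟨h, _, _⟩
      simp at h
  · have e : fc2 s f p + (((z + W + 6 - fc2 s f p).toNat : ℕ) : ℤ) = z + 0 + W + 6 := by
      rw [Int.toNat_of_nonneg (by omega)]; ring
    show Reach t (fmk s f m (fc2 s f p + (((z + W + 6 - fc2 s f p).toNat : ℕ) : ℤ))) q _
    rw [e]; exact r2

/-- A stretch of a path confined to the slanted strip that joins the two boundary columns of
a good matching block is strictly more expensive than the passage time between its endpoints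
(in either order). -/
lemma block_contra2 {s f : Bool} {W n : ℕ} {a b : ℝ≥0} {t : Sym2 (ℤ × ℤ) → ℝ≥0} {m z r : ℤ}
    {σ : ℝ} (hn : 1 ≤ n) (hσ : 0 ≤ σ) (hM : Match σ n m z r)
    (hg : Good2 s f W n a b t m z r) (hab : ((n : ℝ≥0) + 6 * W + 33) * a < n * b)
    (hle : a ≤ b) (u : ℕ → ℤ × ℤ) (hadj : ∀ k, Adj (u k) (u (k + 1)))
    (hconf : ∀ k, |(fc2 s f (u k) : ℝ) - σ * c1 s (u k)| ≤ W) (i j : ℕ) (hij : i ≤ j)
    (hcol : (c1 s (u i) = m ∧ c1 s (u j) = m + n) ∨ (c1 s (u i) = m + n ∧ c1 s (u j) = m)) :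
    passage t (u i) (u j) < ∑ k ∈ Finset.Ico i j, t s(u k, u (k + 1)) ∧
    passage t (u j) (u i) < ∑ k ∈ Finset.Ico i j, t s(u k, u (k + 1)) := by
  have hr0 := hM.2.2.1
  have lb := cross_lb2 hn hσ hM hg u hadj hconf i j hij hcol
  -- the endpoint on the left column and the one on the right column
  have hL : ∀ p : ℤ × ℤ, c1 s p = m → |(fc2 s f p : ℝ) - σ * c1 s p| ≤ W →
      |fc2 s f p - z| ≤ W + 5 := by
    intro p hp1 hp
    have := strip_in_R hn hM (c1 s p) (fc2 s f p) (by omega) (by omega) hp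
    rw [hp1] at this
    simpa [rho_zero] using this
  have hR : ∀ q : ℤ × ℤ, c1 s q = m + n → |(fc2 s f q : ℝ) - σ * c1 s q| ≤ W →
      |fc2 s f q - z - r| ≤ W + 5 := by
    intro q hq1 hq
    have := strip_in_R hn hM (c1 s q) (fc2 s f q) (by omega) (by omega) hq
    rw [hq1] at this
    have e : m + (n : ℤ) - m = n := by ring
    rw [e, rho_n r n hn] at this
    exact this
  have key : ((n + r.toNat + 4 * W + 22 : ℕ) : ℝ≥0) * a
      < ∑ k ∈ Finset.Ico i j, t s(u k, u (k + 1)) := by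
    apply NNReal.coe_lt_coe.mp
    push_cast
    have hab' : ((n : ℝ) + 6 * W + 33) * a < n * b := by
      have := NNReal.coe_lt_coe.mpr hab
      push_cast at this
      exact this
    have hle' : (a : ℝ) ≤ b := by exact_mod_cast hle
    have ha0 : (0 : ℝ) ≤ a := NNReal.coe_nonneg _
    have hrr : ((r.toNat : ℕ) : ℝ) = (r : ℝ) := by
      have := Int.toNat_of_nonneg hr0
      exact_mod_cast this
    have hρ0 : (0 : ℤ) ≤ max 0 (r - 2 * W - 11) := le_max_left _ _
    have hρ1 : r ≤ max 0 (r - 2 * W - 11) + 2 * W + 11 := by omega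
    have hρ0' : (0 : ℝ) ≤ ((max 0 (r - 2 * W - 11) : ℤ) : ℝ) := by exact_mod_cast hρ0
    have hρ1' : (r : ℝ) ≤ ((max 0 (r - 2 * W - 11) : ℤ) : ℝ) + 2 * W + 11 := by
      exact_mod_cast hρ1
    have h1 : (r : ℝ) * a ≤ (((max 0 (r - 2 * W - 11) : ℤ) : ℝ) + 2 * W + 11) * a :=
      mul_le_mul_of_nonneg_right hρ1' ha0
    have h2 : ((max 0 (r - 2 * W - 11) : ℤ) : ℝ) * a
        ≤ ((max 0 (r - 2 * W - 11) : ℤ) : ℝ) * b := mul_le_mul_of_nonneg_left hle' hρ0'
    rw [hrr]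
    linarith
  rcases hcol with ⟨h1, h2⟩ | ⟨h1, h2⟩
  · have hd := detour2 hn hr0 hg (u i) (u j) h1 (hL _ h1 (hconf i)) h2 (hR _ h2 (hconf j))
    exact ⟨lt_of_le_of_lt (passage_le_of_reach hd) key,
      lt_of_le_of_lt (passage_le_of_reach (reach_symm hd)) key⟩
  · have hd := detour2 hn hr0 hg (u j) (u i) h2 (hL _ h2 (hconf j)) h1 (hR _ h1 (hconf i))
    exact ⟨lt_of_le_of_lt (passage_le_of_reach (reach_symm hd)) key,
      lt_of_le_of_lt (passage_le_of_reach hd) key⟩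

lemma escape_box2 (s f : Bool) (W : ℕ) (σ : ℝ) (hσ0 : 0 ≤ σ) (hσ1 : σ ≤ 1) (u : ℕ → ℤ × ℤ)
    (hinj : Function.Injective u)
    (hconf : ∀ k, |(fc2 s f (u k) : ℝ) - σ * c1 s (u k)| ≤ W) (A B : ℤ) :
    ∃ i, c1 s (u i) < A ∨ B < c1 s (u i) := by
  by_contra hcon
  push Not at hcon
  have hsub : Set.range u ⊆
      ((Finset.Icc A B ×ˢ Finset.Icc (-((W : ℤ) + max |A| |B|)) ((W : ℤ) + max |A| |B|)).image
        (fun p : ℤ × ℤ => fmk s f p.1 p.2) : Set (ℤ × ℤ)) := by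
    rintro _ ⟨k, rfl⟩
    obtain ⟨h1, h2⟩ := abs_le.mp (hconf k)
    have hx : |c1 s (u k)| ≤ max |A| |B| := abs_le_max_abs_abs (hcon k).1 (hcon k).2
    have hx' : |((c1 s (u k) : ℤ) : ℝ)| ≤ ((max |A| |B| : ℤ) : ℝ) := by
      rw [← Int.cast_abs]; exact_mod_cast hx
    have hs : |σ * ((c1 s (u k) : ℤ) : ℝ)| ≤ |((c1 s (u k) : ℤ) : ℝ)| := by
      rw [abs_mul, abs_of_nonneg hσ0]
      exact mul_le_of_le_one_left (abs_nonneg _) hσ1
    have hs1 := le_abs_self (σ * ((c1 s (u k) : ℤ) : ℝ))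
    have hs2 := neg_abs_le (σ * ((c1 s (u k) : ℤ) : ℝ))
    have b1 : -(((W : ℤ) + max |A| |B| : ℤ) : ℝ) ≤ (fc2 s f (u k) : ℝ) := by
      push_cast; push_cast at hx'; linarith
    have b2 : (fc2 s f (u k) : ℝ) ≤ (((W : ℤ) + max |A| |B| : ℤ) : ℝ) := by
      push_cast; push_cast at hx'; linarith
    have b1' : -((W : ℤ) + max |A| |B|) ≤ fc2 s f (u k) := by exact_mod_cast b1
    have b2' : fc2 s f (u k) ≤ (W : ℤ) + max |A| |B| := by exact_mod_cast b2
    simp only [Finset.coe_image, Set.mem_image, Finset.mem_coe, Finset.mem_product,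
      Finset.mem_Icc]
    exact ⟨(c1 s (u k), fc2 s f (u k)), ⟨⟨(hcon k).1, (hcon k).2⟩, b1', b2'⟩, fmk_c s f (u k)⟩
  exact (Set.infinite_range_of_injective hinj) ((Finset.finite_toSet _).subset hsub)

/-- Good blocks matching the line of slope `σ` exist arbitrarily far in both directions. -/
def GoodIO2 (s f : Bool) (W n : ℕ) (a b : ℝ≥0) (t : Sym2 (ℤ × ℤ) → ℝ≥0) (σ : ℝ) : Prop :=
  (∀ X : ℤ, ∃ m z r : ℤ, X ≤ m ∧ Match σ n m z r ∧ Good2 s f W n a b t m z r) ∧
  (∀ X : ℤ, ∃ m z r : ℤ, m + n ≤ X ∧ Match σ n m z r ∧ Good2 s f W n a b t m z r)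

/-- Deterministic core for slanted strips. -/
theorem no_confined2 {s f : Bool} {W n : ℕ} {a b : ℝ≥0} {t : Sym2 (ℤ × ℤ) → ℝ≥0} {σ : ℝ}
    (hn : 1 ≤ n) (hab : ((n : ℝ≥0) + 6 * W + 33) * a < n * b) (hle : a ≤ b)
    (hσ0 : 0 ≤ σ) (hσ1 : σ ≤ 1) (hio : GoodIO2 s f W n a b t σ)
    (u : ℕ → ℤ × ℤ) (hinj : Function.Injective u) (hadj : ∀ i, Adj (u i) (u (i + 1)))
    (hgeo : ∀ i j, i < j →
      ∑ k ∈ Finset.Ico i j, t s(u k, u (k + 1)) = passage t (u i) (u j) ∨
      ∑ k ∈ Finset.Ico i j, t s(u k, u (k + 1)) = passage t (u j) (u i)) :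
    ∃ i, (W : ℝ) < |(fc2 s f (u i) : ℝ) - σ * c1 s (u i)| := by
  by_contra hcon
  push Not at hcon
  have hf : ∀ k, |c1 s (u (k + 1)) - c1 s (u k)| ≤ 1 := fun k => step_c1 s (hadj k)
  have fin : ∀ m0 z0 r0 : ℤ, Match σ n m0 z0 r0 → Good2 s f W n a b t m0 z0 r0 →
      ∀ k1 k2 : ℕ, c1 s (u k1) = m0 → c1 s (u k2) = m0 + n → False := by
    intro m0 z0 r0 hM hg k1 k2 h1 h2
    have hne : k1 ≠ k2 := by
      rintro rfl
      rw [h1] at h2
      have : (1 : ℤ) ≤ n := by exact_mod_cast hn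
      omega
    rcases lt_or_gt_of_ne hne with hlt | hlt
    · have hb := block_contra2 hn hσ0 hM hg hab hle u hadj hcon k1 k2 hlt.le (Or.inl ⟨h1, h2⟩)
      rcases hgeo k1 k2 hlt with e | e
      · exact absurd e (ne_of_gt hb.1)
      · exact absurd e (ne_of_gt hb.2)
    · have hb := block_contra2 hn hσ0 hM hg hab hle u hadj hcon k2 k1 hlt.le (Or.inr ⟨h2, h1⟩)
      rcases hgeo k2 k1 hlt with e | e
      · exact absurd e (ne_of_gt hb.1)
      · exact absurd e (ne_of_gt hb.2)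
  obtain ⟨m, z, r, hm, hM, hgm⟩ := hio.1 (c1 s (u 0))
  obtain ⟨m', z', r', hm', hM', hgm'⟩ := hio.2 (c1 s (u 0))
  obtain ⟨i, hi⟩ := escape_box2 s f W σ hσ0 hσ1 u hinj hcon m' (m + n)
  have hn' : (0 : ℤ) ≤ n := Int.natCast_nonneg n
  rcases hi with hi | hi
  · obtain ⟨k1, hk1⟩ := ivt_down (fun k => c1 s (u k)) hf m' i (le_of_lt hi) (by omega)
    obtain ⟨k2, hk2⟩ := ivt_down (fun k => c1 s (u k)) hf (m' + n) i (by omega) hm'
    exact fin m' z' r' hM' hgm' k1 k2 hk1 hk2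
  · obtain ⟨k1, hk1⟩ := ivt_up (fun k => c1 s (u k)) hf m i hm (by omega)
    obtain ⟨k2, hk2⟩ := ivt_up (fun k => c1 s (u k)) hf (m + n) i (by omega) (le_of_lt hi)
    exact fin m z r hM hgm k1 k2 hk1 hk2

end Vale.Agent.Helper23.P158
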