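import Mathlib
import Vale.Agent.Helper23.P158.Det

namespace Vale.Agent.Helper23.P158

open scoped NNReal ENNReal
open MeasureTheory ProbabilityTheory Filter

/-- Independent box events over pairwise disjoint finite coordinate sets of bounded size, each
coordinate constraint having probability at least `δ > 0`, occur infinitely often almost
surely (second Borel-Cantelli lemma for the product measure). -/
lemma io_boxes {ι : Type*} (G : Measure ℝ≥0) [IsProbabilityMeasure G] (tt : ι → Set ℝ≥0)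
    (htt : ∀ e, MeasurableSet (tt e)) (δ : ℝ≥0∞) (hδ : 0 < δ) (hG : ∀ e, δ ≤ G (tt e))
    (F : ℕ → Finset ι) (N : ℕ) (hN : ∀ k, (F k).card ≤ N)
    (hdisj : ∀ k j, k ≠ j → Disjoint (F k) (F j)) :
    ∀ᵐ t ∂(Measure.infinitePi (fun _ : ι => G)),
      ∃ᶠ k in atTop, t ∈ Set.pi (F k : Set ι) tt := by
  classical
  have hBm : ∀ k, MeasurableSet (Set.pi (F k : Set ι) tt) := fun k =>
    MeasurableSet.pi (Finset.countable_toSet _) (fun e _ => htt e)
  have hBμ : ∀ k, Measure.infinitePi (fun _ : ι => G) (Set.pi (F k : Set ι) tt)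
      = ∏ e ∈ F k, G (tt e) := fun k =>
    Measure.infinitePi_pi (μ := fun _ : ι => G) (fun e _ => htt e)
  have hind : iIndepSet (fun k => Set.pi (F k : Set ι) tt)
      (Measure.infinitePi (fun _ : ι => G)) := by
    rw [iIndepSet_iff_meas_biInter hBm]
    intro S
    have e : (⋂ k ∈ S, Set.pi (F k : Set ι) tt)
        = Set.pi ((S.biUnion F : Finset ι) : Set ι) tt := by
      ext t
      simp only [Set.mem_iInter, Set.mem_pi, Finset.mem_coe, Finset.mem_biUnion]
      constructor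
      · rintro h e ⟨k, hk, he⟩; exact h k hk e he
      · intro h k hk e he; exact h e ⟨k, hk, he⟩
    rw [e, Measure.infinitePi_pi (μ := fun _ : ι => G) (fun e _ => htt e),
      Finset.prod_biUnion (fun k _ j _ hkj => hdisj k j hkj)]
    exact Finset.prod_congr rfl (fun k _ => (hBμ k).symm)
  have hlow : ∀ k, (min δ 1) ^ N ≤ Measure.infinitePi (fun _ : ι => G) (Set.pi (F k : Set ι) tt) := by
    intro k
    rw [hBμ]
    calc (min δ 1) ^ N ≤ (min δ 1) ^ (F k).card :=
          pow_le_pow_right_of_le_one' (min_le_right _ _) (hN k)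
      _ = ∏ _e ∈ F k, (min δ 1) := by simp
      _ ≤ ∏ e ∈ F k, G (tt e) :=
          Finset.prod_le_prod' (fun e _ => (min_le_left _ _).trans (hG e))
  have hpos : (min δ 1) ^ N ≠ 0 := pow_ne_zero _ (lt_min hδ one_pos).ne'
  have hsum : ∑' k, Measure.infinitePi (fun _ : ι => G) (Set.pi (F k : Set ι) tt) = ∞ := by
    apply top_unique
    calc ∞ = ∑' _k : ℕ, (min δ 1) ^ N := (ENNReal.tsum_const_eq_top_of_ne_zero hpos).symm
      _ ≤ ∑' k, Measure.infinitePi (fun _ : ι => G) (Set.pi (F k : Set ι) tt) :=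
          ENNReal.tsum_le_tsum hlow
  have h1 := measure_limsup_eq_one hBm hind hsum
  have hm : MeasurableSet (limsup (fun k => Set.pi (F k : Set ι) tt) atTop) :=
    MeasurableSet.measurableSet_limsup hBm
  have h2 : limsup (fun k => Set.pi (F k : Set ι) tt) atTop ∈
      ae (Measure.infinitePi (fun _ : ι => G)) := (mem_ae_iff_prob_eq_one hm).mpr h1
  filter_upwards [h2] with t ht
  exact mem_limsup_iff_frequently_mem.mp ht

/-- Larger second frame coordinate of the two endpoints of an edge. -/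
def lev (s : Bool) : Sym2 (ℤ × ℤ) → ℤ :=
  Sym2.lift ⟨fun u v => max (c2 s u) (c2 s v), fun _ _ => max_comm _ _⟩
/-- Difference of the second frame coordinates of the endpoints of an edge. -/
def dv (s : Bool) : Sym2 (ℤ × ℤ) → ℤ :=
  Sym2.lift ⟨fun u v => |c2 s u - c2 s v|, fun _ _ => abs_sub_comm _ _⟩
/-- Smaller first frame coordinate of the two endpoints of an edge. -/
def pos (s : Bool) : Sym2 (ℤ × ℤ) → ℤ :=
  Sym2.lift ⟨fun u v => min (c1 s u) (c1 s v), fun _ _ => min_comm _ _⟩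

/-- Horizontal edge (in the frame) with left endpoint `(x, y)`. -/
def hE (s : Bool) (x y : ℤ) : Sym2 (ℤ × ℤ) := s(mk s x y, mk s (x + 1) y)
/-- Vertical edge (in the frame) with lower endpoint `(x, y)`. -/
def vE (s : Bool) (x y : ℤ) : Sym2 (ℤ × ℤ) := s(mk s x y, mk s x (y + 1))

lemma lev_hE (s : Bool) (x y : ℤ) : lev s (hE s x y) = y := by simp [lev, hE]
lemma dv_hE (s : Bool) (x y : ℤ) : dv s (hE s x y) = 0 := by simp [dv, hE]
lemma pos_hE (s : Bool) (x y : ℤ) : pos s (hE s x y) = x := by simp [pos, hE]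
lemma dv_vE (s : Bool) (x y : ℤ) : dv s (vE s x y) = 1 := by simp [dv, vE]
lemma pos_vE (s : Bool) (x y : ℤ) : pos s (vE s x y) = x := by simp [pos, vE]

/-- The horizontal edges inside the strip of half-width `w`. -/
def Exp (s : Bool) (w : ℕ) : Set (Sym2 (ℤ × ℤ)) := {e | ∃ x y : ℤ, |y| ≤ w ∧ e = hE s x y}

open Classical in
/-- The constraint put on each edge weight: at least `b` on the horizontal edges inside the
strip, at most `a` elsewhere. -/
noncomputable def tt (s : Bool) (w : ℕ) (a b : ℝ≥0) (e : Sym2 (ℤ × ℤ)) : Set ℝ≥0 :=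
  if e ∈ Exp s w then Set.Ici b else Set.Iic a

lemma tt_exp {s : Bool} {w : ℕ} {a b : ℝ≥0} {x y : ℤ} (hy : |y| ≤ w) :
    tt s w a b (hE s x y) = Set.Ici b := by
  unfold tt
  rw [if_pos]
  exact ⟨x, y, hy, rfl⟩

lemma tt_top {s : Bool} {w : ℕ} {a b : ℝ≥0} {x : ℤ} :
    tt s w a b (hE s x (w + 1)) = Set.Iic a := by
  unfold tt
  rw [if_neg]
  rintro ⟨x', y', hy', e⟩
  have := congrArg (lev s) e
  rw [lev_hE, lev_hE] at this
  have := abs_le.mp hy'
  omega

lemma tt_vert {s : Bool} {w : ℕ} {a b : ℝ≥0} {x y : ℤ} :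
    tt s w a b (vE s x y) = Set.Iic a := by
  unfold tt
  rw [if_neg]
  rintro ⟨x', y', hy', e⟩
  have := congrArg (dv s) e
  rw [dv_vE, dv_hE] at this
  omega

/-- The finite set of edges constrained by the block at position `m`. -/
noncomputable def blk (s : Bool) (w n : ℕ) (m : ℤ) : Finset (Sym2 (ℤ × ℤ)) :=
  ((Finset.Ico m (m + n)) ×ˢ (Finset.Icc (-(w : ℤ)) w)).image (fun p => hE s p.1 p.2)
  ∪ (Finset.Ico m (m + n)).image (fun x => hE s x (w + 1))
  ∪ (Finset.Icc (-(w : ℤ)) w).image (fun y => vE s m y)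
  ∪ (Finset.Icc (-(w : ℤ)) w).image (fun y => vE s (m + n) y)

lemma blk_pos {s : Bool} {w n : ℕ} {m : ℤ} {e : Sym2 (ℤ × ℤ)} (he : e ∈ blk s w n m) :
    m ≤ pos s e ∧ pos s e ≤ m + n := by
  unfold blk at he
  simp only [Finset.mem_union, Finset.mem_image, Finset.mem_product, Finset.mem_Ico,
    Finset.mem_Icc] at he
  have hn : (0 : ℤ) ≤ n := Int.natCast_nonneg n
  rcases he with ((⟨p, ⟨⟨h1, h2⟩, _⟩, rfl⟩ | ⟨x, ⟨h1, h2⟩, rfl⟩) | ⟨y, _, rfl⟩) | ⟨y, _, rfl⟩
  · rw [pos_hE]; omega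
  · rw [pos_hE]; omega
  · rw [pos_vE]; omega
  · rw [pos_vE]; omega

lemma blk_card (s : Bool) (w n : ℕ) (m : ℤ) :
    (blk s w n m).card ≤ n * (2 * w + 1) + n + (2 * w + 1) + (2 * w + 1) := by
  unfold blk
  have c1' : (Finset.Ico m (m + n)).card = n := by simp
  have c2' : (Finset.Icc (-(w : ℤ)) w).card = 2 * w + 1 := by
    rw [Int.card_Icc]; omega
  refine (Finset.card_union_le _ _).trans (add_le_add ((Finset.card_union_le _ _).trans
    (add_le_add ((Finset.card_union_le _ _).trans (add_le_add ?_ ?_)) ?_)) ?_)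
  · refine Finset.card_image_le.trans ?_
    rw [Finset.card_product, c1', c2']
  · exact Finset.card_image_le.trans c1'.le
  · exact Finset.card_image_le.trans c2'.le
  · exact Finset.card_image_le.trans c2'.le

lemma good_of_mem {s : Bool} {w n : ℕ} {a b : ℝ≥0} {t : Sym2 (ℤ × ℤ) → ℝ≥0} {m : ℤ}
    (h : t ∈ Set.pi (blk s w n m : Set (Sym2 (ℤ × ℤ))) (tt s w a b)) : Good s w n a b t m := by
  rw [Set.mem_pi] at h
  refine ⟨?_, ?_, ?_⟩
  · intro p q e1 e2 h1 h2 h3
    have hq : q = mk s (c1 s p + 1) (c2 s p) := ext_c s (by simp [e1]) (by simp [e2])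
    have he : s(p, q) = hE s (c1 s p) (c2 s p) := by
      unfold hE; rw [mk_c, ← hq]
    have hmem : hE s (c1 s p) (c2 s p) ∈ (blk s w n m : Set (Sym2 (ℤ × ℤ))) := by
      unfold blk
      simp only [Finset.coe_union, Finset.coe_image, Set.mem_union, Set.mem_image,
        Finset.mem_coe, Finset.mem_product, Finset.mem_Ico, Finset.mem_Icc]
      exact Or.inl (Or.inl (Or.inl ⟨(c1 s p, c2 s p), ⟨⟨h1, h2⟩, (abs_le.mp h3)⟩, rfl⟩))
    have := h _ hmem
    rw [tt_exp h3] at this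
    rw [he]; exact this
  · intro p q e1 e2 h1 h2 h3
    have hq : q = mk s (c1 s p + 1) (c2 s p) := ext_c s (by simp [e1]) (by simp [e2])
    have he : s(p, q) = hE s (c1 s p) (w + 1) := by
      unfold hE; rw [← h3, mk_c, ← hq]
    have hmem : hE s (c1 s p) (w + 1) ∈ (blk s w n m : Set (Sym2 (ℤ × ℤ))) := by
      unfold blk
      simp only [Finset.coe_union, Finset.coe_image, Set.mem_union, Set.mem_image,
        Finset.mem_coe, Finset.mem_product, Finset.mem_Ico, Finset.mem_Icc]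
      exact Or.inl (Or.inl (Or.inr ⟨c1 s p, ⟨h1, h2⟩, rfl⟩))
    have := h _ hmem
    rw [tt_top] at this
    rw [he]; exact this
  · intro p q e1 e2 h1 h2 h3
    have hq : q = mk s (c1 s p) (c2 s p + 1) := ext_c s (by simp [e1]) (by simp [e2])
    have he : s(p, q) = vE s (c1 s p) (c2 s p) := by
      unfold vE; rw [mk_c, ← hq]
    have hmem : vE s (c1 s p) (c2 s p) ∈ (blk s w n m : Set (Sym2 (ℤ × ℤ))) := by
      unfold blk
      simp only [Finset.coe_union, Finset.coe_image, Set.mem_union, Set.mem_image,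
        Finset.mem_coe, Finset.mem_product, Finset.mem_Ico, Finset.mem_Icc]
      rcases h1 with h1 | h1
      · exact Or.inl (Or.inr ⟨c2 s p, ⟨h2, h3⟩, by rw [h1]⟩)
      · exact Or.inr ⟨c2 s p, ⟨h2, h3⟩, by rw [h1]⟩
    have := h _ hmem
    rw [tt_vert] at this
    rw [he]; exact this

lemma tt_meas (s : Bool) (w : ℕ) (a b : ℝ≥0) (e : Sym2 (ℤ × ℤ)) :
    MeasurableSet (tt s w a b e) := by
  unfold tt
  split_ifs
  · exact measurableSet_Ici
  · exact measurableSet_Iic

lemma tt_low (G : Measure ℝ≥0) (s : Bool) (w : ℕ) (a b : ℝ≥0) (e : Sym2 (ℤ × ℤ)) :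
    min (G (Set.Iic a)) (G (Set.Ici b)) ≤ G (tt s w a b e) := by
  unfold tt
  split_ifs
  · exact min_le_right _ _
  · exact min_le_left _ _

lemma blk_disj {s : Bool} {w n : ℕ} {m m' : ℤ} (h : m + n < m' ∨ m' + n < m) :
    Disjoint (blk s w n m) (blk s w n m') := by
  rw [Finset.disjoint_left]
  intro e h1 h2
  have := blk_pos h1
  have := blk_pos h2
  omega

lemma ae_goodIO (G : Measure ℝ≥0) [IsProbabilityMeasure G] (s : Bool) (w n : ℕ) (a b : ℝ≥0)
    (ha : 0 < G (Set.Iic a)) (hb : 0 < G (Set.Ici b)) :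
    ∀ᵐ t ∂(Measure.infinitePi (fun _ : Sym2 (ℤ × ℤ) => G)), GoodIO s w n a b t := by
  have hδ : 0 < min (G (Set.Iic a)) (G (Set.Ici b)) := lt_min ha hb
  have key : ∀ k j : ℕ, k < j → (k : ℤ) * (n + 1) + n + 1 ≤ (j : ℤ) * (n + 1) := by
    intro k j hkj
    have h1 : ((k : ℤ) + 1) ≤ j := by exact_mod_cast hkj
    have h2 : (0 : ℤ) ≤ (n : ℤ) + 1 := by positivity
    have h3 := mul_le_mul_of_nonneg_right h1 h2
    linarith
  have d1 : ∀ k j : ℕ, k ≠ j →
      Disjoint (blk s w n ((k : ℤ) * (n + 1))) (blk s w n ((j : ℤ) * (n + 1))) := by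
    intro k j hkj
    apply blk_disj
    rcases lt_or_gt_of_ne hkj with h | h
    · left; have := key k j h; linarith
    · right; have := key j k h; linarith
  have d2 : ∀ k j : ℕ, k ≠ j →
      Disjoint (blk s w n (-(k : ℤ) * (n + 1))) (blk s w n (-(j : ℤ) * (n + 1))) := by
    intro k j hkj
    apply blk_disj
    rcases lt_or_gt_of_ne hkj with h | h
    · right; have := key k j h; linarith
    · left; have := key j k h; linarith
  have h1 := io_boxes G (tt s w a b) (tt_meas s w a b) _ hδ (tt_low G s w a b)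
    (fun k : ℕ => blk s w n ((k : ℤ) * (n + 1))) _ (fun k => blk_card s w n _) d1
  have h2 := io_boxes G (tt s w a b) (tt_meas s w a b) _ hδ (tt_low G s w a b)
    (fun k : ℕ => blk s w n (-(k : ℤ) * (n + 1))) _ (fun k => blk_card s w n _) d2
  filter_upwards [h1, h2] with t ht1 ht2
  have hn : (0 : ℤ) ≤ n := Int.natCast_nonneg n
  constructor
  · intro X
    obtain ⟨k, hk, hk'⟩ := (ht1.and_eventually (eventually_ge_atTop X.toNat)).exists
    refine ⟨(k : ℤ) * (n + 1), ?_, good_of_mem hk⟩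
    have e1 : X ≤ k := by omega
    have e2 : (0 : ℤ) ≤ k := Int.natCast_nonneg k
    nlinarith
  · intro X
    obtain ⟨k, hk, hk'⟩ :=
      (ht2.and_eventually (eventually_ge_atTop ((n : ℤ) - X).toNat)).exists
    refine ⟨-(k : ℤ) * (n + 1), ?_, good_of_mem hk⟩
    have e1 : (n : ℤ) - X ≤ k := by omega
    have e2 : (0 : ℤ) ≤ k := Int.natCast_nonneg k
    nlinarith

lemma exists_block_len (a b : ℝ≥0) (hab : a < b) (w : ℕ) :
    ∃ n : ℕ, 1 ≤ n ∧ ((n : ℝ≥0) + 4 * w + 2) * a < n * b := by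
  have hba : (0 : ℝ) < (b : ℝ) - a := sub_pos.mpr (by exact_mod_cast hab)
  obtain ⟨n0, hn0⟩ := exists_nat_gt (((4 : ℝ) * w + 2) * a / ((b : ℝ) - a))
  refine ⟨n0 + 1, by omega, ?_⟩
  apply NNReal.coe_lt_coe.mp
  push_cast
  rw [div_lt_iff₀ hba] at hn0
  nlinarith

/-- Almost surely, no injective nearest-neighbour sequence all of whose finite stretches are
geodesic (in one of the two orientations) stays in an axis-parallel strip. -/
theorem ae_main (G : Measure ℝ≥0) [IsProbabilityMeasure G] (a b : ℝ≥0) (hab : a < b)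
    (ha : 0 < G (Set.Iic a)) (hb : 0 < G (Set.Ici b)) :
    ∀ᵐ t ∂(Measure.infinitePi (fun _ : Sym2 (ℤ × ℤ) => G)),
      ∀ (s : Bool) (w : ℕ) (u : ℕ → ℤ × ℤ), Function.Injective u →
        (∀ i, Adj (u i) (u (i + 1))) →
        (∀ i j, i < j →
          ∑ k ∈ Finset.Ico i j, t s(u k, u (k + 1)) = passage t (u i) (u j) ∨
          ∑ k ∈ Finset.Ico i j, t s(u k, u (k + 1)) = passage t (u j) (u i)) →
        ∃ i, (w : ℤ) < |c2 s (u i)| := by
  choose nw hnw1 hnw2 using exists_block_len a b hab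
  have h : ∀ᵐ t ∂(Measure.infinitePi (fun _ : Sym2 (ℤ × ℤ) => G)),
      ∀ (s : Bool) (w : ℕ), GoodIO s w (nw w) a b t :=
    ae_all_iff.mpr (fun s => ae_all_iff.mpr (fun w => ae_goodIO G s w (nw w) a b ha hb))
  filter_upwards [h] with t ht
  intro s w u hinj hadj hgeo
  exact no_confined (hnw1 w) (hnw2 w) (ht s w) u hinj hadj hgeo

end Vale.Agent.Helper23.P158
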