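import Mathlib
import Vale.Agent.Helper23.P158.Prob

namespace Vale.Agent.Helper23.P158

open scoped NNReal ENNReal
open MeasureTheory ProbabilityTheory Filter

/-- A law on the nonnegative reals that is not a point mass gives positive mass to some lower
ray and to some disjoint upper ray. -/
lemma exists_gap (G : Measure ℝ≥0) [IsProbabilityMeasure G] (hG : ∀ x, G {x} ≠ 1) :
    ∃ a b : ℝ≥0, a < b ∧ 0 < G (Set.Iic a) ∧ 0 < G (Set.Ici b) := by
  have key : ∀ p q : ℝ≥0, p ∈ G.support → q ∈ G.support → p < q →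
      ∃ a b : ℝ≥0, a < b ∧ 0 < G (Set.Iic a) ∧ 0 < G (Set.Ici b) := by
    intro p q hp hq hpq
    obtain ⟨a, hpa, haq⟩ := exists_between hpq
    obtain ⟨b, hab, hbq⟩ := exists_between haq
    exact ⟨a, b, hab, (Measure.mem_support_iff_forall p).mp hp _ (Iic_mem_nhds hpa),
      (Measure.mem_support_iff_forall q).mp hq _ (Ici_mem_nhds hbq)⟩
  obtain ⟨x, hx⟩ := Measure.nonempty_support (IsProbabilityMeasure.ne_zero G)
  have hpos : 0 < G ({x}ᶜ) := by
    rw [pos_iff_ne_zero]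
    intro h0
    exact hG x ((prob_compl_eq_zero_iff (measurableSet_singleton x)).mp h0)
  obtain ⟨y, hy1, hy2⟩ := Measure.nonempty_inter_support_of_pos hpos
  have hne : y ≠ x := hy1
  rcases lt_or_gt_of_ne hne with h | h
  · exact key y x hy2 hx h
  · exact key x y hx hy2 h

lemma sum_shift (f : ℤ → ℝ≥0) (N : ℤ) (i j : ℕ) :
    ∑ k ∈ Finset.Ico i j, f (N + k) = ∑ l ∈ Finset.Ico (N + i) (N + j), f l := by
  have him : (Finset.Ico i j).image (fun k : ℕ => N + (k : ℤ)) = Finset.Ico (N + i) (N + j) := by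
    ext l
    simp only [Finset.mem_image, Finset.mem_Ico]
    constructor
    · rintro ⟨k, ⟨h1, h2⟩, rfl⟩; omega
    · rintro ⟨h1, h2⟩; exact ⟨(l - N).toNat, by omega, by omega⟩
  rw [← him, Finset.sum_image (fun x _ y _ h => by omega)]

lemma sum_flip (f : ℤ → ℝ≥0) (N : ℤ) (i j : ℕ) :
    ∑ k ∈ Finset.Ico i j, f (N - 1 - k) = ∑ l ∈ Finset.Ico (N - j) (N - i), f l := by
  have him : (Finset.Ico i j).image (fun k : ℕ => N - 1 - (k : ℤ))
      = Finset.Ico (N - j) (N - i) := by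
    ext l
    simp only [Finset.mem_image, Finset.mem_Ico]
    constructor
    · rintro ⟨k, ⟨h1, h2⟩, rfl⟩; omega
    · rintro ⟨h1, h2⟩; exact ⟨(N - 1 - l).toNat, by omega, by omega⟩
  rw [← him, Finset.sum_image (fun x _ y _ h => by omega)]

/-- Main theorem: for a law that is not a point mass, almost surely every geodesic ray, and
each of the two ends of every bigeodesic, leaves every horizontal and every vertical strip. -/
theorem strip_main (G : Measure ℝ≥0) [IsProbabilityMeasure G] (hG : ∀ x, G {x} ≠ 1) :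
    ∀ᵐ t ∂(Measure.infinitePi (fun _ : Sym2 (ℤ × ℤ) => G)),
      (∀ v : ℕ → ℤ × ℤ, IsRay t v → ∀ w : ℕ,
        (∃ i, (w : ℤ) < |(v i).1|) ∧ (∃ i, (w : ℤ) < |(v i).2|)) ∧
      (∀ v : ℤ → ℤ × ℤ, IsBigeodesic t v → ∀ (w : ℕ) (N : ℤ),
        (∃ i, N ≤ i ∧ (w : ℤ) < |(v i).1|) ∧ (∃ i, N ≤ i ∧ (w : ℤ) < |(v i).2|) ∧
        (∃ i, i ≤ N ∧ (w : ℤ) < |(v i).1|) ∧ (∃ i, i ≤ N ∧ (w : ℤ) < |(v i).2|)) := by
  obtain ⟨a, b, hab, ha, hb⟩ := exists_gap G hG
  filter_upwards [ae_main G a b hab ha hb] with t ht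
  constructor
  · intro v hv w
    have hgeo : ∀ i j, i < j →
        ∑ k ∈ Finset.Ico i j, t s(v k, v (k + 1)) = passage t (v i) (v j) ∨
        ∑ k ∈ Finset.Ico i j, t s(v k, v (k + 1)) = passage t (v j) (v i) :=
      fun i j hij => Or.inl (hv.2.2 i j hij)
    exact ⟨ht true w v hv.1 hv.2.1 hgeo, ht false w v hv.1 hv.2.1 hgeo⟩
  · intro v hv w N
    -- forward end
    have hinjF : Function.Injective (fun k : ℕ => v (N + k)) := by
      intro x y h
      have := hv.1 h
      omega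
    have hadjF : ∀ i : ℕ, Adj (v (N + i)) (v (N + ((i + 1 : ℕ) : ℤ))) := by
      intro i
      have e : N + ((i + 1 : ℕ) : ℤ) = N + i + 1 := by push_cast; ring
      rw [e]; exact hv.2.1 _
    have hgeoF : ∀ i j : ℕ, i < j →
        ∑ k ∈ Finset.Ico i j, t s(v (N + k), v (N + ((k + 1 : ℕ) : ℤ)))
          = passage t (v (N + i)) (v (N + j)) ∨
        ∑ k ∈ Finset.Ico i j, t s(v (N + k), v (N + ((k + 1 : ℕ) : ℤ)))
          = passage t (v (N + j)) (v (N + i)) := by
      intro i j hij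
      left
      have e : ∀ k : ℕ, t s(v (N + k), v (N + ((k + 1 : ℕ) : ℤ)))
          = (fun l : ℤ => t s(v l, v (l + 1))) (N + k) := by
        intro k
        have e' : N + ((k + 1 : ℕ) : ℤ) = N + k + 1 := by push_cast; ring
        simp only [e']
      rw [Finset.sum_congr rfl (fun k _ => e k), sum_shift (fun l : ℤ => t s(v l, v (l + 1))) N i j]
      exact hv.2.2 _ _ (by omega)
    -- backward end
    have hinjB : Function.Injective (fun k : ℕ => v (N - k)) := by
      intro x y h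
      have := hv.1 h
      omega
    have hadjB : ∀ i : ℕ, Adj (v (N - i)) (v (N - ((i + 1 : ℕ) : ℤ))) := by
      intro i
      have e : N - (i : ℤ) = N - ((i + 1 : ℕ) : ℤ) + 1 := by push_cast; ring
      rw [e]; exact adj_symm (hv.2.1 _)
    have hgeoB : ∀ i j : ℕ, i < j →
        ∑ k ∈ Finset.Ico i j, t s(v (N - k), v (N - ((k + 1 : ℕ) : ℤ)))
          = passage t (v (N - i)) (v (N - j)) ∨
        ∑ k ∈ Finset.Ico i j, t s(v (N - k), v (N - ((k + 1 : ℕ) : ℤ)))
          = passage t (v (N - j)) (v (N - i)) := by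
      intro i j hij
      right
      have e : ∀ k : ℕ, t s(v (N - k), v (N - ((k + 1 : ℕ) : ℤ)))
          = (fun l : ℤ => t s(v l, v (l + 1))) (N - 1 - k) := by
        intro k
        have e1 : N - ((k + 1 : ℕ) : ℤ) = N - 1 - k := by push_cast; ring
        have e2 : N - (k : ℤ) = N - 1 - k + 1 := by ring
        show t s(v (N - k), v (N - ((k + 1 : ℕ) : ℤ))) = t s(v (N - 1 - k), v (N - 1 - k + 1))
        rw [e1, ← e2, Sym2.eq_swap]
      rw [Finset.sum_congr rfl (fun k _ => e k), sum_flip (fun l : ℤ => t s(v l, v (l + 1))) N i j]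
      exact hv.2.2 _ _ (by omega)
    obtain ⟨i1, h1⟩ := ht true w (fun k : ℕ => v (N + k)) hinjF hadjF hgeoF
    obtain ⟨i2, h2⟩ := ht false w (fun k : ℕ => v (N + k)) hinjF hadjF hgeoF
    obtain ⟨i3, h3⟩ := ht true w (fun k : ℕ => v (N - k)) hinjB hadjB hgeoB
    obtain ⟨i4, h4⟩ := ht false w (fun k : ℕ => v (N - k)) hinjB hadjB hgeoB
    exact ⟨⟨N + i1, by omega, h1⟩, ⟨N + i2, by omega, h2⟩, ⟨N - i3, by omega, h3⟩,
      ⟨N - i4, by omega, h4⟩⟩

end Vale.Agent.Helper23.P158
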