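import Mathlib
import Vale.Agent.Helper23.P158.Prob
import Vale.Agent.Helper23.P158.Det2

namespace Vale.Agent.Helper23.P158

open scoped NNReal ENNReal
open MeasureTheory ProbabilityTheory Filter

/-- Smaller second frame coordinate (with reflection) of the endpoints of an edge. -/
def p2 (s f : Bool) : Sym2 (ℤ × ℤ) → ℤ :=
  Sym2.lift ⟨fun u v => min (fc2 s f u) (fc2 s f v), fun _ _ => min_comm _ _⟩
/-- Difference of the second frame coordinates of the endpoints of an edge. -/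
def dvf (s f : Bool) : Sym2 (ℤ × ℤ) → ℤ :=
  Sym2.lift ⟨fun u v => |fc2 s f u - fc2 s f v|, fun _ _ => abs_sub_comm _ _⟩

/-- Horizontal frame edge with left endpoint `(x, y)`. -/
def hE2 (s f : Bool) (x y : ℤ) : Sym2 (ℤ × ℤ) := s(fmk s f x y, fmk s f (x + 1) y)
/-- Vertical frame edge with lower endpoint `(x, y)`. -/
def vE2 (s f : Bool) (x y : ℤ) : Sym2 (ℤ × ℤ) := s(fmk s f x y, fmk s f x (y + 1))

lemma pos_hE2 (s f : Bool) (x y : ℤ) : pos s (hE2 s f x y) = x := by simp [pos, hE2]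
lemma p2_hE2 (s f : Bool) (x y : ℤ) : p2 s f (hE2 s f x y) = y := by simp [p2, hE2]
lemma dvf_hE2 (s f : Bool) (x y : ℤ) : dvf s f (hE2 s f x y) = 0 := by simp [dvf, hE2]
lemma pos_vE2 (s f : Bool) (x y : ℤ) : pos s (vE2 s f x y) = x := by simp [pos, vE2]
lemma p2_vE2 (s f : Bool) (x y : ℤ) : p2 s f (vE2 s f x y) = y := by simp [p2, vE2]
lemma dvf_vE2 (s f : Bool) (x y : ℤ) : dvf s f (vE2 s f x y) = 1 := by simp [dvf, vE2]

/-- The expensive edges of the slanted block `(m, z, r)`. -/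
def Exp2 (s f : Bool) (W n : ℕ) (m z r : ℤ) (e : Sym2 (ℤ × ℤ)) : Prop :=
  (dvf s f e = 0 ∧ |p2 s f e - z - rho r n (pos s e - m)| ≤ W + 5) ∨
  (dvf s f e = 1 ∧ m < pos s e ∧ pos s e < m + n ∧
    |p2 s f e - z - rho r n (pos s e - m)| ≤ W + 5)

open Classical in
/-- Constraint on the weight of each edge in the slanted block. -/
noncomputable def tt2 (s f : Bool) (W n : ℕ) (a b : ℝ≥0) (m z r : ℤ) (e : Sym2 (ℤ × ℤ)) :
    Set ℝ≥0 :=
  if Exp2 s f W n m z r e then Set.Ici b else Set.Iic a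

/-- The finite set of edges constrained by the slanted block `(m, z, r)`. -/
noncomputable def blk2 (s f : Bool) (W n : ℕ) (m z r : ℤ) : Finset (Sym2 (ℤ × ℤ)) :=
  ((Finset.Ico m (m + n)) ×ˢ (Finset.Icc (z - (W + 5)) (z + r + (W + 5) + 1))).image
      (fun p => hE2 s f p.1 p.2)
  ∪ ((Finset.Icc m (m + n)) ×ˢ (Finset.Icc (z - (W + 5)) (z + r + (W + 5)))).image
      (fun p => vE2 s f p.1 p.2)

lemma blk2_pos {s f : Bool} {W n : ℕ} {m z r : ℤ} {e : Sym2 (ℤ × ℤ)}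
    (he : e ∈ blk2 s f W n m z r) : m ≤ pos s e ∧ pos s e ≤ m + n := by
  unfold blk2 at he
  simp only [Finset.mem_union, Finset.mem_image, Finset.mem_product, Finset.mem_Ico,
    Finset.mem_Icc] at he
  rcases he with ⟨p, ⟨⟨h1, h2⟩, _⟩, rfl⟩ | ⟨p, ⟨⟨h1, h2⟩, _⟩, rfl⟩
  · rw [pos_hE2]; omega
  · rw [pos_vE2]; omega

lemma blk2_card (s f : Bool) (W n : ℕ) (m z r : ℤ) (hrn : r ≤ n) :
    (blk2 s f W n m z r).card ≤ n * (n + 2 * W + 12) + (n + 1) * (n + 2 * W + 11) := by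
  unfold blk2
  have c1' : (Finset.Ico m (m + n)).card = n := by simp
  have c2' : (Finset.Icc m (m + n)).card = n + 1 := by
    rw [Int.card_Icc]; omega
  have c3' : (Finset.Icc (z - ((W : ℤ) + 5)) (z + r + (W + 5) + 1)).card ≤ n + 2 * W + 12 := by
    rw [Int.card_Icc]; omega
  have c4' : (Finset.Icc (z - ((W : ℤ) + 5)) (z + r + (W + 5))).card ≤ n + 2 * W + 11 := by
    rw [Int.card_Icc]; omega
  refine (Finset.card_union_le _ _).trans (add_le_add ?_ ?_)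
  · refine Finset.card_image_le.trans ?_
    rw [Finset.card_product, c1']
    exact Nat.mul_le_mul_left _ c3'
  · refine Finset.card_image_le.trans ?_
    rw [Finset.card_product, c2']
    exact Nat.mul_le_mul_left _ c4'

lemma good2_of_mem {s f : Bool} {W n : ℕ} {a b : ℝ≥0} {t : Sym2 (ℤ × ℤ) → ℝ≥0} {m z r : ℤ}
    (h : t ∈ Set.pi (blk2 s f W n m z r : Set (Sym2 (ℤ × ℤ))) (tt2 s f W n a b m z r)) :
    Good2 s f W n a b t m z r := by
  rw [Set.mem_pi] at h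
  refine ⟨?_, ?_⟩
  · intro p q e1 e2 h1 h2 h3 h4
    have hq : q = fmk s f (c1 s p + 1) (fc2 s f p) := fext_c s f (by simp [e1]) (by simp [e2])
    have he : s(p, q) = hE2 s f (c1 s p) (fc2 s f p) := by
      unfold hE2; rw [fmk_c, ← hq]
    have hmem : hE2 s f (c1 s p) (fc2 s f p) ∈ (blk2 s f W n m z r : Set (Sym2 (ℤ × ℤ))) := by
      unfold blk2
      simp only [Finset.coe_union, Finset.coe_image, Set.mem_union, Set.mem_image,
        Finset.mem_coe, Finset.mem_product, Finset.mem_Ico, Finset.mem_Icc]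
      exact Or.inl ⟨(c1 s p, fc2 s f p), ⟨⟨h1, h2⟩, h3, h4⟩, rfl⟩
    have hm := h _ hmem
    rw [he]
    constructor
    · intro hc
      have hE : Exp2 s f W n m z r (hE2 s f (c1 s p) (fc2 s f p)) :=
        Or.inl ⟨dvf_hE2 _ _ _ _, by rw [p2_hE2, pos_hE2]; exact hc⟩
      unfold tt2 at hm
      rw [if_pos hE] at hm
      exact hm
    · intro hc
      have hE : ¬ Exp2 s f W n m z r (hE2 s f (c1 s p) (fc2 s f p)) := by
        rintro (⟨_, h'⟩ | ⟨h', _⟩)
        · rw [p2_hE2, pos_hE2] at h'; exact hc h'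
        · rw [dvf_hE2] at h'; omega
      unfold tt2 at hm
      rw [if_neg hE] at hm
      exact hm
  · intro p q e1 e2 h1 h2 h3 h4
    have hq : q = fmk s f (c1 s p) (fc2 s f p + 1) := fext_c s f (by simp [e1]) (by simp [e2])
    have he : s(p, q) = vE2 s f (c1 s p) (fc2 s f p) := by
      unfold vE2; rw [fmk_c, ← hq]
    have hmem : vE2 s f (c1 s p) (fc2 s f p) ∈ (blk2 s f W n m z r : Set (Sym2 (ℤ × ℤ))) := by
      unfold blk2
      simp only [Finset.coe_union, Finset.coe_image, Set.mem_union, Set.mem_image,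
        Finset.mem_coe, Finset.mem_product, Finset.mem_Ico, Finset.mem_Icc]
      exact Or.inr ⟨(c1 s p, fc2 s f p), ⟨⟨h1, h2⟩, h3, h4⟩, rfl⟩
    have hm := h _ hmem
    rw [he]
    constructor
    · rintro ⟨hc1, hc2, hc3⟩
      have hE : Exp2 s f W n m z r (vE2 s f (c1 s p) (fc2 s f p)) :=
        Or.inr ⟨dvf_vE2 _ _ _ _, by rw [pos_vE2]; exact hc1, by rw [pos_vE2]; exact hc2,
          by rw [p2_vE2, pos_vE2]; exact hc3⟩
      unfold tt2 at hm
      rw [if_pos hE] at hm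
      exact hm
    · intro hc
      have hE : ¬ Exp2 s f W n m z r (vE2 s f (c1 s p) (fc2 s f p)) := by
        rintro (⟨h', _⟩ | ⟨_, h1', h2', h3'⟩)
        · rw [dvf_vE2] at h'; omega
        · rw [pos_vE2] at h1' h2'
          rw [p2_vE2, pos_vE2] at h3'
          exact hc ⟨h1', h2', h3'⟩
      unfold tt2 at hm
      rw [if_neg hE] at hm
      exact hm

lemma tt2_meas (s f : Bool) (W n : ℕ) (a b : ℝ≥0) (m z r : ℤ) (e : Sym2 (ℤ × ℤ)) :
    MeasurableSet (tt2 s f W n a b m z r e) := by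
  unfold tt2
  split_ifs
  · exact measurableSet_Ici
  · exact measurableSet_Iic

lemma tt2_low (G : Measure ℝ≥0) (s f : Bool) (W n : ℕ) (a b : ℝ≥0) (m z r : ℤ)
    (e : Sym2 (ℤ × ℤ)) :
    min (G (Set.Iic a)) (G (Set.Ici b)) ≤ G (tt2 s f W n a b m z r e) := by
  unfold tt2
  split_ifs
  · exact min_le_right _ _
  · exact min_le_left _ _

lemma blk2_disj {s f : Bool} {W n : ℕ} {m m' z z' r r' : ℤ} (h : m + n < m' ∨ m' + n < m) :
    Disjoint (blk2 s f W n m z r) (blk2 s f W n m' z' r') := by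
  rw [Finset.disjoint_left]
  intro e h1 h2
  have := blk2_pos h1
  have := blk2_pos h2
  omega

/-- Box events over pairwise disjoint finite coordinate sets are independent under the
product measure (the constraints may depend on the box). -/
lemma indep_boxes {ι κ : Type*} (G : Measure ℝ≥0) [IsProbabilityMeasure G] (F : κ → Finset ι)
    (τ : κ → ι → Set ℝ≥0) (hτ : ∀ k e, MeasurableSet (τ k e))
    (hdisj : ∀ k j, k ≠ j → Disjoint (F k) (F j)) :
    iIndepSet (fun k => Set.pi (F k : Set ι) (τ k)) (Measure.infinitePi (fun _ : ι => G)) := by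
  classical
  have hsel : ∀ e : ι, ∃ T : Set ℝ≥0, MeasurableSet T ∧ ∀ k, e ∈ F k → T = τ k e := by
    intro e
    by_cases h : ∃ k, e ∈ F k
    · obtain ⟨k0, hk0⟩ := h
      refine ⟨τ k0 e, hτ k0 e, fun k hk => ?_⟩
      by_cases hkk : k0 = k
      · rw [hkk]
      · exact absurd hk (Finset.disjoint_left.mp (hdisj _ _ hkk) hk0)
    · exact ⟨Set.univ, MeasurableSet.univ, fun k hk => absurd ⟨k, hk⟩ h⟩
  choose tt' htt' hsel' using hsel
  have hpi : ∀ k, Set.pi (F k : Set ι) (τ k) = Set.pi (F k : Set ι) tt' := by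
    intro k
    ext t
    simp only [Set.mem_pi, Finset.mem_coe]
    constructor
    · intro h e he; rw [hsel' e k he]; exact h e he
    · intro h e he; rw [← hsel' e k he]; exact h e he
  have hBm : ∀ k, MeasurableSet (Set.pi (F k : Set ι) (τ k)) := fun k =>
    MeasurableSet.pi (Finset.countable_toSet _) (fun e _ => hτ k e)
  rw [iIndepSet_iff_meas_biInter hBm]
  intro S
  have e : (⋂ k ∈ S, Set.pi (F k : Set ι) (τ k))
      = Set.pi ((S.biUnion F : Finset ι) : Set ι) tt' := by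
    ext t
    simp only [Set.mem_iInter, hpi, Set.mem_pi, Finset.mem_coe, Finset.mem_biUnion]
    constructor
    · rintro h e ⟨k, hk, he⟩; exact h k hk e he
    · intro h k hk e he; exact h e ⟨k, hk, he⟩
  rw [e, Measure.infinitePi_pi (μ := fun _ : ι => G) (fun e _ => htt' e),
    Finset.prod_biUnion (fun k _ j _ hkj => hdisj k j hkj)]
  refine Finset.prod_congr rfl (fun k _ => ?_)
  rw [hpi k, Measure.infinitePi_pi (μ := fun _ : ι => G) (fun e _ => htt' e)]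

/-- For independent box events each of probability at least `p`, the probability that none of
the events with index in `S` occurs is at most `(1 - p) ^ S.card`. -/
lemma compl_bound {ι κ : Type*} (G : Measure ℝ≥0) [IsProbabilityMeasure G] (F : κ → Finset ι)
    (τ : κ → ι → Set ℝ≥0) (hτ : ∀ k e, MeasurableSet (τ k e))
    (hdisj : ∀ k j, k ≠ j → Disjoint (F k) (F j)) (S : Finset κ) (p : ℝ≥0∞)
    (hp : ∀ k ∈ S, p ≤ Measure.infinitePi (fun _ : ι => G) (Set.pi (F k : Set ι) (τ k))) :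
    Measure.infinitePi (fun _ : ι => G) (⋂ k ∈ S, (Set.pi (F k : Set ι) (τ k))ᶜ)
      ≤ (1 - p) ^ S.card := by
  have hind := indep_boxes G F τ hτ hdisj
  have hBm : ∀ k, MeasurableSet (Set.pi (F k : Set ι) (τ k)) := fun k =>
    MeasurableSet.pi (Finset.countable_toSet _) (fun e _ => hτ k e)
  have h1 := ((iIndepSet_iff_iIndep _ _).mp hind).meas_biInter (S := S)
    (s := fun k => (Set.pi (F k : Set ι) (τ k))ᶜ)
    (fun k _ => (MeasurableSpace.measurableSet_generateFrom (Set.mem_singleton _)).compl)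
  rw [h1]
  calc ∏ k ∈ S, Measure.infinitePi (fun _ : ι => G) ((Set.pi (F k : Set ι) (τ k))ᶜ)
      ≤ ∏ _k ∈ S, (1 - p) := by
        refine Finset.prod_le_prod' (fun k hk => ?_)
        rw [prob_compl_eq_one_sub (hBm k)]
        exact tsub_le_tsub_left (hp k hk) 1
    _ = (1 - p) ^ S.card := by simp

/-- Number of grid slopes minus one at scale `K`. -/
def gridM (n K : ℕ) : ℕ := 2 * K * (n + 1) + 1

/-- The block event for the grid slope `i / gridM n K`, at window number `k` on the side `ε`. -/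
noncomputable def blkEv (s f : Bool) (W n : ℕ) (a b : ℝ≥0) (ε : ℤ) (K i k : ℕ) :
    Set (Sym2 (ℤ × ℤ) → ℝ≥0) :=
  Set.pi (blk2 s f W n (ε * k * (n + 1)) ((i : ℤ) * (ε * k * (n + 1)) / gridM n K)
      ((i : ℤ) * n / gridM n K) : Set (Sym2 (ℤ × ℤ)))
    (tt2 s f W n a b (ε * k * (n + 1)) ((i : ℤ) * (ε * k * (n + 1)) / gridM n K)
      ((i : ℤ) * n / gridM n K))

/-- Bad event at scale `K`: some grid slope has no good block among the windows `K ≤ k < 2K`. -/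
noncomputable def badEv (s f : Bool) (W n : ℕ) (a b : ℝ≥0) (ε : ℤ) (K : ℕ) :
    Set (Sym2 (ℤ × ℤ) → ℝ≥0) :=
  ⋃ i ∈ Finset.range (gridM n K + 1), ⋂ k ∈ Finset.Ico K (2 * K), (blkEv s f W n a b ε K i k)ᶜ

/-- Lower bound for the probability of one slanted block. -/
noncomputable def pBlk (G : Measure ℝ≥0) (W n : ℕ) (a b : ℝ≥0) : ℝ≥0∞ :=
  (min (min (G (Set.Iic a)) (G (Set.Ici b))) 1) ^
    (n * (n + 2 * W + 12) + (n + 1) * (n + 2 * W + 11))

lemma prob_blk2 (G : Measure ℝ≥0) [IsProbabilityMeasure G] (s f : Bool) (W n : ℕ) (a b : ℝ≥0)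
    (m z r : ℤ) (hrn : r ≤ n) :
    pBlk G W n a b ≤ Measure.infinitePi (fun _ : Sym2 (ℤ × ℤ) => G)
      (Set.pi (blk2 s f W n m z r : Set (Sym2 (ℤ × ℤ))) (tt2 s f W n a b m z r)) := by
  rw [Measure.infinitePi_pi (μ := fun _ : Sym2 (ℤ × ℤ) => G) (fun e _ => tt2_meas s f W n a b m z r e)]
  unfold pBlk
  calc (min (min (G (Set.Iic a)) (G (Set.Ici b))) 1) ^
        (n * (n + 2 * W + 12) + (n + 1) * (n + 2 * W + 11))
      ≤ (min (min (G (Set.Iic a)) (G (Set.Ici b))) 1) ^ (blk2 s f W n m z r).card :=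
        pow_le_pow_right_of_le_one' (min_le_right _ _) (blk2_card s f W n m z r hrn)
    _ = ∏ _e ∈ blk2 s f W n m z r, (min (min (G (Set.Iic a)) (G (Set.Ici b))) 1) := by simp
    _ ≤ ∏ e ∈ blk2 s f W n m z r, G (tt2 s f W n a b m z r e) :=
        Finset.prod_le_prod' (fun e _ => (min_le_left _ _).trans (tt2_low G s f W n a b m z r e))

lemma bad_bound (G : Measure ℝ≥0) [IsProbabilityMeasure G] (s f : Bool) (W n : ℕ) (a b : ℝ≥0)
    (ε : ℤ) (hε : ε = 1 ∨ ε = -1) (K : ℕ) :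
    Measure.infinitePi (fun _ : Sym2 (ℤ × ℤ) => G) (badEv s f W n a b ε K)
      ≤ ((gridM n K + 1 : ℕ) : ℝ≥0∞) * (1 - pBlk G W n a b) ^ K := by
  have key : ∀ k j : ℕ, k < j → (k : ℤ) * (n + 1) + n + 1 ≤ (j : ℤ) * (n + 1) := by
    intro k j hkj
    have h1 : ((k : ℤ) + 1) ≤ j := by exact_mod_cast hkj
    have h2 : (0 : ℤ) ≤ (n : ℤ) + 1 := by positivity
    have h3 := mul_le_mul_of_nonneg_right h1 h2
    linarith
  have hgM : (0 : ℤ) < (gridM n K : ℤ) := by unfold gridM; positivity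
  unfold badEv
  calc Measure.infinitePi (fun _ : Sym2 (ℤ × ℤ) => G)
        (⋃ i ∈ Finset.range (gridM n K + 1),
          ⋂ k ∈ Finset.Ico K (2 * K), (blkEv s f W n a b ε K i k)ᶜ)
      ≤ ∑ i ∈ Finset.range (gridM n K + 1), Measure.infinitePi (fun _ : Sym2 (ℤ × ℤ) => G)
          (⋂ k ∈ Finset.Ico K (2 * K), (blkEv s f W n a b ε K i k)ᶜ) :=
        measure_biUnion_finset_le _ _
    _ ≤ ∑ _i ∈ Finset.range (gridM n K + 1), (1 - pBlk G W n a b) ^ K := by
        refine Finset.sum_le_sum (fun i hi => ?_)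
        have hi' : i ≤ gridM n K := by
          have := Finset.mem_range.mp hi; omega
        have hr : (i : ℤ) * n / gridM n K ≤ n := by
          apply Int.ediv_le_of_le_mul hgM
          have : (i : ℤ) ≤ gridM n K := by exact_mod_cast hi'
          have hn0 : (0 : ℤ) ≤ n := Int.natCast_nonneg n
          nlinarith
        have hdisj : ∀ k j : ℕ, k ≠ j →
            Disjoint (blk2 s f W n (ε * k * (n + 1)) ((i : ℤ) * (ε * k * (n + 1)) / gridM n K)
              ((i : ℤ) * n / gridM n K))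
            (blk2 s f W n (ε * j * (n + 1)) ((i : ℤ) * (ε * j * (n + 1)) / gridM n K)
              ((i : ℤ) * n / gridM n K)) := by
          intro k j hkj
          apply blk2_disj
          rcases hε with rfl | rfl
          · rcases lt_or_gt_of_ne hkj with h | h
            · left; have := key k j h; linarith
            · right; have := key j k h; linarith
          · rcases lt_or_gt_of_ne hkj with h | h
            · right; have := key k j h; linarith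
            · left; have := key j k h; linarith
        have hb := compl_bound G
          (fun k : ℕ => blk2 s f W n (ε * k * (n + 1))
            ((i : ℤ) * (ε * k * (n + 1)) / gridM n K) ((i : ℤ) * n / gridM n K))
          (fun k : ℕ => tt2 s f W n a b (ε * k * (n + 1))
            ((i : ℤ) * (ε * k * (n + 1)) / gridM n K) ((i : ℤ) * n / gridM n K))
          (fun k e => tt2_meas s f W n a b _ _ _ e) hdisj (Finset.Ico K (2 * K))
          (pBlk G W n a b) (fun k _ => prob_blk2 G s f W n a b _ _ _ hr)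
        have hc : (Finset.Ico K (2 * K)).card = K := by rw [Nat.card_Ico]; omega
        rw [hc] at hb
        exact hb
    _ = ((gridM n K + 1 : ℕ) : ℝ≥0∞) * (1 - pBlk G W n a b) ^ K := by
        rw [Finset.sum_const, Finset.card_range, nsmul_eq_mul]

lemma sum_bad_ne_top (p : ℝ≥0∞) (hp0 : 0 < p) (n : ℕ) :
    ∑' K : ℕ, ((gridM n K + 1 : ℕ) : ℝ≥0∞) * (1 - p) ^ K ≠ ⊤ := by
  have hne : 1 - p ≠ ⊤ := ENNReal.sub_ne_top ENNReal.one_ne_top
  have hlt : 1 - p < 1 := ENNReal.sub_lt_self ENNReal.one_ne_top one_ne_zero hp0.ne'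
  have hq0 : 0 ≤ (1 - p).toReal := ENNReal.toReal_nonneg
  have hq1 : (1 - p).toReal < 1 := by
    have := (ENNReal.toReal_lt_toReal hne ENNReal.one_ne_top).mpr hlt
    simpa using this
  have hofr : 1 - p = ENNReal.ofReal (1 - p).toReal := (ENNReal.ofReal_toReal hne).symm
  have s1 : Summable (fun K : ℕ => (K : ℝ) ^ 1 * (1 - p).toReal ^ K) :=
    summable_pow_mul_geometric_of_norm_lt_one 1 (by rw [Real.norm_of_nonneg hq0]; exact hq1)
  have s2 : Summable (fun K : ℕ => (1 - p).toReal ^ K) := summable_geometric_of_lt_one hq0 hq1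
  have s3 : Summable (fun K : ℕ => ((gridM n K + 1 : ℕ) : ℝ) * (1 - p).toReal ^ K) := by
    refine ((s1.mul_left (2 * ((n : ℝ) + 1))).add (s2.mul_left 2)).congr (fun K => ?_)
    unfold gridM
    push_cast
    ring
  have e : ∀ K : ℕ, ((gridM n K + 1 : ℕ) : ℝ≥0∞) * (1 - p) ^ K
      = ENNReal.ofReal (((gridM n K + 1 : ℕ) : ℝ) * (1 - p).toReal ^ K) := by
    intro K
    rw [ENNReal.ofReal_mul (Nat.cast_nonneg _), ENNReal.ofReal_natCast, ENNReal.ofReal_pow hq0,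
      ← hofr]
  rw [tsum_congr e, ← ENNReal.ofReal_tsum_of_nonneg (fun K => by positivity) s3]
  exact ENNReal.ofReal_ne_top

lemma ae_eventually_good (G : Measure ℝ≥0) [IsProbabilityMeasure G] (s f : Bool) (W n : ℕ)
    (a b : ℝ≥0) (ha : 0 < G (Set.Iic a)) (hb : 0 < G (Set.Ici b)) (ε : ℤ)
    (hε : ε = 1 ∨ ε = -1) :
    ∀ᵐ t ∂(Measure.infinitePi (fun _ : Sym2 (ℤ × ℤ) => G)),
      ∀ᶠ K in atTop, t ∉ badEv s f W n a b ε K := by
  have hp0 : 0 < pBlk G W n a b := by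
    unfold pBlk
    exact ENNReal.pow_pos (lt_min (lt_min ha hb) one_pos) _
  exact ae_eventually_notMem (ne_top_of_le_ne_top (sum_bad_ne_top _ hp0 n)
    (ENNReal.tsum_le_tsum (fun K => bad_bound G s f W n a b ε hε K)))

lemma match_of_grid {σ : ℝ} (hσ0 : 0 ≤ σ) (hσ1 : σ ≤ 1) (M : ℕ) (hM : 1 ≤ M) (n : ℕ)
    (hnM : n ≤ M) (m : ℤ) (hm : |m| ≤ M) :
    Match σ n m (⌊σ * (M : ℝ)⌋ * m / M) (⌊σ * (M : ℝ)⌋ * n / M) := by
  have hMpos : (0 : ℤ) < M := by exact_mod_cast hM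
  have hMr : (0 : ℝ) < M := by exact_mod_cast hM
  have hθ0 : 0 ≤ σ * M - ⌊σ * (M : ℝ)⌋ := sub_nonneg.mpr (Int.floor_le _)
  have hθ1 : σ * M - ⌊σ * (M : ℝ)⌋ < 1 := by linarith [Int.lt_floor_add_one (σ * (M : ℝ))]
  have hi0 : 0 ≤ ⌊σ * (M : ℝ)⌋ := Int.floor_nonneg.mpr (by positivity)
  have hiM : ⌊σ * (M : ℝ)⌋ ≤ M := by
    have : ((⌊σ * (M : ℝ)⌋ : ℤ) : ℝ) ≤ M := (Int.floor_le _).trans (by nlinarith)
    exact_mod_cast this
  have z1 := Int.ediv_mul_le (⌊σ * (M : ℝ)⌋ * m) hMpos.ne'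
  have z2 := Int.lt_ediv_add_one_mul_self (⌊σ * (M : ℝ)⌋ * m) hMpos
  have r1 := Int.ediv_mul_le (⌊σ * (M : ℝ)⌋ * n) hMpos.ne'
  have r2 := Int.lt_ediv_add_one_mul_self (⌊σ * (M : ℝ)⌋ * n) hMpos
  have z1' : ((⌊σ * (M : ℝ)⌋ * m / M : ℤ) : ℝ) * M ≤ (⌊σ * (M : ℝ)⌋ : ℝ) * m := by
    exact_mod_cast z1
  have z2' : (⌊σ * (M : ℝ)⌋ : ℝ) * m < (((⌊σ * (M : ℝ)⌋ * m / M : ℤ) : ℝ) + 1) * M := by
    exact_mod_cast z2
  have r1' : ((⌊σ * (M : ℝ)⌋ * n / M : ℤ) : ℝ) * M ≤ (⌊σ * (M : ℝ)⌋ : ℝ) * n := by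
    exact_mod_cast r1
  have r2' : (⌊σ * (M : ℝ)⌋ : ℝ) * n < (((⌊σ * (M : ℝ)⌋ * n / M : ℤ) : ℝ) + 1) * M := by
    exact_mod_cast r2
  obtain ⟨m1, m2⟩ := abs_le.mp hm
  have m1' : -(M : ℝ) ≤ m := by exact_mod_cast m1
  have m2' : (m : ℝ) ≤ M := by exact_mod_cast m2
  have n0 : (0 : ℝ) ≤ n := Nat.cast_nonneg n
  have nM : (n : ℝ) ≤ M := by exact_mod_cast hnM
  have P1 : 0 ≤ (σ * M - ⌊σ * (M : ℝ)⌋) * ((m : ℝ) + M) := mul_nonneg hθ0 (by linarith)
  have P2 : 0 ≤ (σ * M - ⌊σ * (M : ℝ)⌋) * ((M : ℝ) - m) := mul_nonneg hθ0 (by linarith)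
  have P3 : 0 ≤ (1 - (σ * M - ⌊σ * (M : ℝ)⌋)) * (M : ℝ) := mul_nonneg (by linarith) hMr.le
  have P4 : 0 ≤ (σ * M - ⌊σ * (M : ℝ)⌋) * (n : ℝ) := mul_nonneg hθ0 n0
  have P5 : 0 ≤ (σ * M - ⌊σ * (M : ℝ)⌋) * ((M : ℝ) - n) := mul_nonneg hθ0 (by linarith)
  refine ⟨?_, ?_, ?_, ?_⟩
  · rw [abs_le]
    constructor
    · have h : 0 ≤ (σ * m - ((⌊σ * (M : ℝ)⌋ * m / M : ℤ) : ℝ) + 2) * M := by nlinarith
      linarith [nonneg_of_mul_nonneg_left h hMr]
    · have h : 0 ≤ (2 - (σ * m - ((⌊σ * (M : ℝ)⌋ * m / M : ℤ) : ℝ))) * M := by nlinarith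
      linarith [nonneg_of_mul_nonneg_left h hMr]
  · rw [abs_le]
    constructor
    · have h : 0 ≤ (σ * n - ((⌊σ * (M : ℝ)⌋ * n / M : ℤ) : ℝ) + 2) * M := by nlinarith
      linarith [nonneg_of_mul_nonneg_left h hMr]
    · have h : 0 ≤ (2 - (σ * n - ((⌊σ * (M : ℝ)⌋ * n / M : ℤ) : ℝ))) * M := by nlinarith
      linarith [nonneg_of_mul_nonneg_left h hMr]
  · exact Int.ediv_nonneg (mul_nonneg hi0 (Int.natCast_nonneg n)) hMpos.le
  · apply Int.ediv_le_of_le_mul hMpos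
    have hn0 : (0 : ℤ) ≤ n := Int.natCast_nonneg n
    nlinarith

lemma blk_of_notbad {s f : Bool} {W n : ℕ} {a b : ℝ≥0} {t : Sym2 (ℤ × ℤ) → ℝ≥0} {ε : ℤ}
    (hε : ε = 1 ∨ ε = -1) {K : ℕ} (hK : 1 ≤ K) (h : t ∉ badEv s f W n a b ε K)
    (σ : ℝ) (hσ0 : 0 ≤ σ) (hσ1 : σ ≤ 1) :
    ∃ k : ℕ, K ≤ k ∧ k < 2 * K ∧ ∃ z r : ℤ, Match σ n (ε * k * (n + 1)) z r ∧
      Good2 s f W n a b t (ε * k * (n + 1)) z r := by
  have hall : ∀ i ∈ Finset.range (gridM n K + 1), ∃ k ∈ Finset.Ico K (2 * K),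
      t ∈ blkEv s f W n a b ε K i k := by
    intro i hi
    by_contra hc
    push Not at hc
    exact h (Set.mem_biUnion hi (Set.mem_iInter₂.mpr (fun k hk => hc k hk)))
  have hMr : (0 : ℝ) ≤ (gridM n K : ℝ) := Nat.cast_nonneg _
  have hfl : ⌊σ * (gridM n K : ℝ)⌋₊ ≤ gridM n K :=
    Nat.floor_le_of_le (by nlinarith)
  obtain ⟨k, hk, hmem⟩ := hall ⌊σ * (gridM n K : ℝ)⌋₊ (Finset.mem_range.mpr (by omega))
  obtain ⟨hk1, hk2⟩ := Finset.mem_Ico.mp hk
  have hg := good2_of_mem hmem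
  have hcast : ((⌊σ * (gridM n K : ℝ)⌋₊ : ℕ) : ℤ) = ⌊σ * (gridM n K : ℝ)⌋ :=
    Int.natCast_floor_eq_floor (by positivity)
  rw [hcast] at hg
  refine ⟨k, hk1, hk2, _, _, ?_, hg⟩
  have hM1 : 1 ≤ gridM n K := by unfold gridM; omega
  have hnM : n ≤ gridM n K := by
    unfold gridM
    calc n ≤ 2 * 1 * (n + 1) + 1 := by omega
      _ ≤ 2 * K * (n + 1) + 1 := by gcongr
  have hk2' : (k : ℤ) < 2 * K := by exact_mod_cast hk2
  have hk0 : (0 : ℤ) ≤ k := Int.natCast_nonneg k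
  have hn0 : (0 : ℤ) ≤ n := Int.natCast_nonneg n
  have habs : |ε * k * (n + 1)| ≤ (gridM n K : ℤ) := by
    rw [abs_le]
    unfold gridM
    push_cast
    rcases hε with rfl | rfl <;> constructor <;> nlinarith
  exact match_of_grid hσ0 hσ1 (gridM n K) hM1 n hnM _ habs

lemma goodIO2_of_ev {s f : Bool} {W n : ℕ} {a b : ℝ≥0} {t : Sym2 (ℤ × ℤ) → ℝ≥0}
    (h1 : ∀ᶠ K in atTop, t ∉ badEv s f W n a b 1 K)
    (h2 : ∀ᶠ K in atTop, t ∉ badEv s f W n a b (-1) K)
    (σ : ℝ) (hσ0 : 0 ≤ σ) (hσ1 : σ ≤ 1) : GoodIO2 s f W n a b t σ := by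
  have hn0 : (0 : ℤ) ≤ n := Int.natCast_nonneg n
  constructor
  · intro X
    obtain ⟨K, hK1, hK2⟩ := (h1.and (eventually_ge_atTop (max X.toNat 1))).exists
    obtain ⟨k, hk1, hk2, z, r, hM, hg⟩ :=
      blk_of_notbad (Or.inl rfl) (le_of_max_le_right hK2) hK1 σ hσ0 hσ1
    refine ⟨1 * k * (n + 1), z, r, ?_, hM, hg⟩
    have hXk : X ≤ k := by
      have := le_of_max_le_left hK2
      omega
    have hk0 : (0 : ℤ) ≤ k := Int.natCast_nonneg k
    nlinarith
  · intro X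
    obtain ⟨K, hK1, hK2⟩ :=
      (h2.and (eventually_ge_atTop (max ((n : ℤ) - X).toNat 1))).exists
    obtain ⟨k, hk1, hk2, z, r, hM, hg⟩ :=
      blk_of_notbad (Or.inr rfl) (le_of_max_le_right hK2) hK1 σ hσ0 hσ1
    refine ⟨-1 * k * (n + 1), z, r, ?_, hM, hg⟩
    have hXk : (n : ℤ) - X ≤ k := by
      have := le_of_max_le_left hK2
      omega
    have hk0 : (0 : ℤ) ≤ k := Int.natCast_nonneg k
    nlinarith

lemma exists_block_len2 (a b : ℝ≥0) (hab : a < b) (W : ℕ) :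
    ∃ n : ℕ, 1 ≤ n ∧ ((n : ℝ≥0) + 6 * W + 33) * a < n * b := by
  have hba : (0 : ℝ) < (b : ℝ) - a := sub_pos.mpr (by exact_mod_cast hab)
  obtain ⟨n0, hn0⟩ := exists_nat_gt (((6 : ℝ) * W + 33) * a / ((b : ℝ) - a))
  refine ⟨n0 + 1, by omega, ?_⟩
  apply NNReal.coe_lt_coe.mp
  push_cast
  rw [div_lt_iff₀ hba] at hn0
  nlinarith

/-- Almost surely, no injective nearest-neighbour sequence all of whose finite stretches are
geodesic (in one of the two orientations) stays within bounded distance of a line through the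
origin whose slope, in one of the four frames, lies between 0 and 1. -/
theorem ae_main2 (G : Measure ℝ≥0) [IsProbabilityMeasure G] (a b : ℝ≥0) (hab : a < b)
    (ha : 0 < G (Set.Iic a)) (hb : 0 < G (Set.Ici b)) :
    ∀ᵐ t ∂(Measure.infinitePi (fun _ : Sym2 (ℤ × ℤ) => G)),
      ∀ (s f : Bool) (W : ℕ) (σ : ℝ), 0 ≤ σ → σ ≤ 1 → ∀ u : ℕ → ℤ × ℤ,
        Function.Injective u → (∀ i, Adj (u i) (u (i + 1))) →
        (∀ i j, i < j →
          ∑ k ∈ Finset.Ico i j, t s(u k, u (k + 1)) = passage t (u i) (u j) ∨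
          ∑ k ∈ Finset.Ico i j, t s(u k, u (k + 1)) = passage t (u j) (u i)) →
        ∃ i, (W : ℝ) < |(fc2 s f (u i) : ℝ) - σ * c1 s (u i)| := by
  choose nw hnw1 hnw2 using exists_block_len2 a b hab
  have h : ∀ᵐ t ∂(Measure.infinitePi (fun _ : Sym2 (ℤ × ℤ) => G)),
      ∀ (s f : Bool) (W : ℕ),
        (∀ᶠ K in atTop, t ∉ badEv s f W (nw W) a b 1 K) ∧
        (∀ᶠ K in atTop, t ∉ badEv s f W (nw W) a b (-1) K) :=
    ae_all_iff.mpr (fun s => ae_all_iff.mpr (fun f => ae_all_iff.mpr (fun W =>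
      (ae_eventually_good G s f W (nw W) a b ha hb 1 (Or.inl rfl)).and
        (ae_eventually_good G s f W (nw W) a b ha hb (-1) (Or.inr rfl)))))
  filter_upwards [h] with t ht
  intro s f W σ h0 h1 u hinj hadj hgeo
  exact no_confined2 (hnw1 W) (hnw2 W) hab.le h0 h1
    (goodIO2_of_ev (ht s f W).1 (ht s f W).2 σ h0 h1) u hinj hadj hgeo

end Vale.Agent.Helper23.P158
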