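import Mathlib
import Vale.Agent.Helper23.P158.Main
import Vale.Agent.Helper23.P158.Prob2

namespace Vale.Agent.Helper23.P158

open scoped NNReal ENNReal
open MeasureTheory ProbabilityTheory Filter

/-- Every nonzero linear form whose second coefficient dominates is unbounded along a
geodesic-like sequence, for weights in the almost sure event of `ae_main2`. -/
lemma form_unbounded {t : Sym2 (ℤ × ℤ) → ℝ≥0}
    (ht : ∀ (s f : Bool) (W : ℕ) (σ : ℝ), 0 ≤ σ → σ ≤ 1 → ∀ u : ℕ → ℤ × ℤ,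
        Function.Injective u → (∀ i, Adj (u i) (u (i + 1))) →
        (∀ i j, i < j →
          ∑ k ∈ Finset.Ico i j, t s(u k, u (k + 1)) = passage t (u i) (u j) ∨
          ∑ k ∈ Finset.Ico i j, t s(u k, u (k + 1)) = passage t (u j) (u i)) →
        ∃ i, (W : ℝ) < |(fc2 s f (u i) : ℝ) - σ * c1 s (u i)|)
    (s : Bool) (u : ℕ → ℤ × ℤ) (hinj : Function.Injective u)
    (hadj : ∀ i, Adj (u i) (u (i + 1)))
    (hgeo : ∀ i j, i < j →
          ∑ k ∈ Finset.Ico i j, t s(u k, u (k + 1)) = passage t (u i) (u j) ∨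
          ∑ k ∈ Finset.Ico i j, t s(u k, u (k + 1)) = passage t (u j) (u i))
    (A B : ℝ) (hB : B ≠ 0) (hAB : |A| ≤ |B|) (w : ℝ) :
    ∃ i, w < |A * (c1 s (u i) : ℝ) + B * (c2 s (u i) : ℝ)| := by
  by_contra hcon
  push Not at hcon
  have hBpos : 0 < |B| := abs_pos.mpr hB
  have hσ : |(-A / B)| ≤ 1 := by
    rw [abs_div, abs_neg]
    exact (div_le_one hBpos).mpr hAB
  have hW : w / |B| ≤ (⌈w / |B|⌉₊ : ℝ) := Nat.le_ceil _
  have key : ∀ i, |(c2 s (u i) : ℝ) - (-A / B) * c1 s (u i)| ≤ (⌈w / |B|⌉₊ : ℝ) := by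
    intro i
    have e : (c2 s (u i) : ℝ) - (-A / B) * c1 s (u i)
        = (A * (c1 s (u i) : ℝ) + B * (c2 s (u i) : ℝ)) / B := by
      field_simp
      ring
    rw [e, abs_div]
    exact ((div_le_div_iff_of_pos_right hBpos).mpr (hcon i)).trans hW
  by_cases hs : 0 ≤ -A / B
  · obtain ⟨i, hi⟩ := ht s false ⌈w / |B|⌉₊ (-A / B) hs ((le_abs_self _).trans hσ) u hinj
      hadj hgeo
    have e : (fc2 s false (u i) : ℝ) = (c2 s (u i) : ℝ) := by simp [fc2]
    rw [e] at hi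
    exact absurd (key i) (not_le.mpr hi)
  · have hs' : 0 ≤ -(-A / B) := by linarith [not_le.mp hs]
    obtain ⟨i, hi⟩ := ht s true ⌈w / |B|⌉₊ (-(-A / B)) hs' ((neg_le_abs _).trans hσ) u hinj
      hadj hgeo
    have e : (fc2 s true (u i) : ℝ) - -(-A / B) * (c1 s (u i) : ℝ)
        = -((c2 s (u i) : ℝ) - (-A / B) * c1 s (u i)) := by
      simp [fc2]
      ring
    rw [e, abs_neg] at hi
    exact absurd (key i) (not_le.mpr hi)

/-- Every nonzero linear form is unbounded along a geodesic-like sequence. -/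
lemma form_unbounded' {t : Sym2 (ℤ × ℤ) → ℝ≥0}
    (ht : ∀ (s f : Bool) (W : ℕ) (σ : ℝ), 0 ≤ σ → σ ≤ 1 → ∀ u : ℕ → ℤ × ℤ,
        Function.Injective u → (∀ i, Adj (u i) (u (i + 1))) →
        (∀ i j, i < j →
          ∑ k ∈ Finset.Ico i j, t s(u k, u (k + 1)) = passage t (u i) (u j) ∨
          ∑ k ∈ Finset.Ico i j, t s(u k, u (k + 1)) = passage t (u j) (u i)) →
        ∃ i, (W : ℝ) < |(fc2 s f (u i) : ℝ) - σ * c1 s (u i)|)
    (u : ℕ → ℤ × ℤ) (hinj : Function.Injective u)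
    (hadj : ∀ i, Adj (u i) (u (i + 1)))
    (hgeo : ∀ i j, i < j →
          ∑ k ∈ Finset.Ico i j, t s(u k, u (k + 1)) = passage t (u i) (u j) ∨
          ∑ k ∈ Finset.Ico i j, t s(u k, u (k + 1)) = passage t (u j) (u i))
    (α β : ℝ) (hαβ : α ≠ 0 ∨ β ≠ 0) (w : ℝ) :
    ∃ i, w < |α * ((u i).1 : ℝ) + β * ((u i).2 : ℝ)| := by
  by_cases h : |α| ≤ |β|
  · have hβ : β ≠ 0 := by
      rintro rfl
      rw [abs_zero] at h
      have hα : α = 0 := abs_eq_zero.mp (le_antisymm h (abs_nonneg _))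
      rcases hαβ with h' | h'
      · exact h' hα
      · exact h' rfl
    obtain ⟨i, hi⟩ := form_unbounded ht false u hinj hadj hgeo α β hβ h w
    exact ⟨i, by simpa [c1, c2] using hi⟩
  · have h' : |β| ≤ |α| := (not_le.mp h).le
    have hα : α ≠ 0 := by
      rintro rfl
      rw [abs_zero] at h
      exact h (abs_nonneg _)
    obtain ⟨i, hi⟩ := form_unbounded ht true u hinj hadj hgeo β α hα h' w
    refine ⟨i, ?_⟩
    have e : α * ((u i).1 : ℝ) + β * ((u i).2 : ℝ)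
        = β * (c1 true (u i) : ℝ) + α * (c2 true (u i) : ℝ) := by
      simp [c1, c2]; ring
    rw [e]; exact hi

/-- The two ends of a bigeodesic, read from any index `N`, are geodesic-like sequences. -/
lemma bigeo_ends {t : Sym2 (ℤ × ℤ) → ℝ≥0} {v : ℤ → ℤ × ℤ} (hv : IsBigeodesic t v) (N : ℤ) :
    (Function.Injective (fun k : ℕ => v (N + k)) ∧
      (∀ i : ℕ, Adj (v (N + i)) (v (N + ((i + 1 : ℕ) : ℤ)))) ∧
      (∀ i j : ℕ, i < j →
        ∑ k ∈ Finset.Ico i j, t s(v (N + k), v (N + ((k + 1 : ℕ) : ℤ)))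
          = passage t (v (N + i)) (v (N + j)) ∨
        ∑ k ∈ Finset.Ico i j, t s(v (N + k), v (N + ((k + 1 : ℕ) : ℤ)))
          = passage t (v (N + j)) (v (N + i)))) ∧
    (Function.Injective (fun k : ℕ => v (N - k)) ∧
      (∀ i : ℕ, Adj (v (N - i)) (v (N - ((i + 1 : ℕ) : ℤ)))) ∧
      (∀ i j : ℕ, i < j →
        ∑ k ∈ Finset.Ico i j, t s(v (N - k), v (N - ((k + 1 : ℕ) : ℤ)))
          = passage t (v (N - i)) (v (N - j)) ∨
        ∑ k ∈ Finset.Ico i j, t s(v (N - k), v (N - ((k + 1 : ℕ) : ℤ)))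
          = passage t (v (N - j)) (v (N - i)))) := by
  refine ⟨⟨?_, ?_, ?_⟩, ⟨?_, ?_, ?_⟩⟩
  · intro x y h
    have := hv.1 h
    omega
  · intro i
    have e : N + ((i + 1 : ℕ) : ℤ) = N + i + 1 := by push_cast; ring
    rw [e]; exact hv.2.1 _
  · intro i j hij
    left
    have e : ∀ k : ℕ, t s(v (N + k), v (N + ((k + 1 : ℕ) : ℤ)))
        = (fun l : ℤ => t s(v l, v (l + 1))) (N + k) := by
      intro k
      have e' : N + ((k + 1 : ℕ) : ℤ) = N + k + 1 := by push_cast; ring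
      simp only [e']
    rw [Finset.sum_congr rfl (fun k _ => e k),
      sum_shift (fun l : ℤ => t s(v l, v (l + 1))) N i j]
    exact hv.2.2 _ _ (by omega)
  · intro x y h
    have := hv.1 h
    omega
  · intro i
    have e : N - (i : ℤ) = N - ((i + 1 : ℕ) : ℤ) + 1 := by push_cast; ring
    rw [e]; exact adj_symm (hv.2.1 _)
  · intro i j hij
    right
    have e : ∀ k : ℕ, t s(v (N - k), v (N - ((k + 1 : ℕ) : ℤ)))
        = (fun l : ℤ => t s(v l, v (l + 1))) (N - 1 - k) := by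
      intro k
      have e1 : N - ((k + 1 : ℕ) : ℤ) = N - 1 - k := by push_cast; ring
      have e2 : N - (k : ℤ) = N - 1 - k + 1 := by ring
      show t s(v (N - k), v (N - ((k + 1 : ℕ) : ℤ))) = t s(v (N - 1 - k), v (N - 1 - k + 1))
      rw [e1, ← e2, Sym2.eq_swap]
    rw [Finset.sum_congr rfl (fun k _ => e k),
      sum_flip (fun l : ℤ => t s(v l, v (l + 1))) N i j]
    exact hv.2.2 _ _ (by omega)

/-- Main theorem (all directions): for a law that is not a point mass, almost surely no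
geodesic ray, and neither end of any bigeodesic, stays within bounded distance of a straight
line: every nonzero linear form of the coordinates is unbounded along it. -/
theorem lines_main (G : Measure ℝ≥0) [IsProbabilityMeasure G] (hG : ∀ x, G {x} ≠ 1) :
    ∀ᵐ t ∂(Measure.infinitePi (fun _ : Sym2 (ℤ × ℤ) => G)),
      (∀ v : ℕ → ℤ × ℤ, IsRay t v → ∀ α β : ℝ, (α ≠ 0 ∨ β ≠ 0) → ∀ w : ℝ,
        ∃ i, w < |α * ((v i).1 : ℝ) + β * ((v i).2 : ℝ)|) ∧
      (∀ v : ℤ → ℤ × ℤ, IsBigeodesic t v → ∀ α β : ℝ, (α ≠ 0 ∨ β ≠ 0) → ∀ (w : ℝ) (N : ℤ),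
        (∃ i, N ≤ i ∧ w < |α * ((v i).1 : ℝ) + β * ((v i).2 : ℝ)|) ∧
        (∃ i, i ≤ N ∧ w < |α * ((v i).1 : ℝ) + β * ((v i).2 : ℝ)|)) := by
  obtain ⟨a, b, hab, ha, hb⟩ := exists_gap G hG
  filter_upwards [ae_main2 G a b hab ha hb] with t ht
  constructor
  · intro v hv α β hαβ w
    exact form_unbounded' ht v hv.1 hv.2.1 (fun i j hij => Or.inl (hv.2.2 i j hij)) α β hαβ w
  · intro v hv α β hαβ w N
    obtain ⟨⟨f1, f2, f3⟩, ⟨b1, b2, b3⟩⟩ := bigeo_ends hv N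
    obtain ⟨i1, h1⟩ := form_unbounded' ht (fun k : ℕ => v (N + k)) f1 f2 f3 α β hαβ w
    obtain ⟨i2, h2⟩ := form_unbounded' ht (fun k : ℕ => v (N - k)) b1 b2 b3 α β hαβ w
    exact ⟨⟨N + i1, by omega, h1⟩, ⟨N - i2, by omega, h2⟩⟩

end Vale.Agent.Helper23.P158
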