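import Mathlib
import Vale.Agent.Helper23.P158.Main2

/-!
Bridge between the definitions of `Vale.Agent.Helper23.P158.Defs` and their written-out
forms, used by the hand-in `P158.BigeodesicLinesPlain`.
-/

namespace Vale.Agent.Helper23.P158

open MeasureTheory
open scoped NNReal

/-- The cost of a vertex list is the sum of the weights of its consecutive pairs. -/
theorem cost_eq_zipWith (t : Sym2 (ℤ × ℤ) → ℝ≥0) :
    ∀ l : List (ℤ × ℤ), cost t l = (List.zipWith (fun a b => t s(a, b)) l l.tail).sum
  | [] => by simp [cost]
  | [_] => by simp [cost]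
  | a :: b :: l => by
    have h := cost_eq_zipWith t (b :: l)
    simp only [cost, List.tail_cons, List.zipWith_cons_cons, List.sum_cons] at h ⊢
    rw [h]

/-- The passage time, written out. -/
theorem passage_eq_iInf_zipWith (t : Sym2 (ℤ × ℤ) → ℝ≥0) (x y : ℤ × ℤ) :
    (⨅ p : {l : List (ℤ × ℤ) //
        l.IsChain (fun u v : ℤ × ℤ => |u.1 - v.1| + |u.2 - v.2| = 1) ∧
          l.head? = some x ∧ l.getLast? = some y},
        (List.zipWith (fun a b => t s(a, b)) p.1 p.1.tail).sum) = passage t x y := by
  show (⨅ p : {l : List (ℤ × ℤ) // l.IsChain Adj ∧ l.head? = some x ∧ l.getLast? = some y},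
      (List.zipWith (fun a b => t s(a, b)) p.1 p.1.tail).sum) = passage t x y
  unfold passage
  exact iInf_congr fun p => (cost_eq_zipWith t p.1).symm

end Vale.Agent.Helper23.P158
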